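import Vale.Agent.P318.NPH.FieldN

/-!
Any field with `2 ^ s` elements on the numbers below `2 ^ s`, and vectors over it as numbers.
-/

namespace Vale.Agent.P318.S6

open Finset Vale.Agent.P318.NPH

/-- A field on the numbers below `q = 2 ^ s`, with modulus `P`. -/
structure FN (s P : ℕ) (K : Type*) [Field K] where
  e : K ≃ Fin (2 ^ s)
  zero : (e 0 : ℕ) = 0
  one : (e 1 : ℕ) = 1
  add : ∀ x y, (e (x + y) : ℕ) = (e x : ℕ) ^^^ (e y : ℕ)
  mul : ∀ x y, (e (x * y) : ℕ) = mulN (2 ^ s) P (e x) (e y)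

theorem exists_FN (s : ℕ) (hs : 1 ≤ s) (K : Type*) [Field K] [Fintype K]
    (hK : Fintype.card K = 2 ^ s) : Nonempty (FN s (findP (2 ^ s)) K) := by
  obtain ⟨h, h', hg⟩ := findP_spec (s := s) hs
  set P := findP (2 ^ s) with hP
  have hirr := irreducible hs h h' hg
  have : Fact (Irreducible (poly P)) := ⟨hirr⟩
  have hb : Function.Bijective (fun n : Fin (2 ^ s) => el P n) := by
    constructor
    · intro a b hab
      exact Fin.ext (el_inj h h' a.2 b.2 hab)
    · intro x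
      obtain ⟨n, hn, rfl⟩ := el_surj h h' x
      exact ⟨⟨n, hn⟩, rfl⟩
  let e : AdjoinRoot (poly P) ≃ Fin (2 ^ s) := (Equiv.ofBijective _ hb).symm
  have he : ∀ x, el P (e x : ℕ) = x := fun x => (Equiv.ofBijective _ hb).apply_symm_apply x
  have hadd : ∀ x y, (e (x + y) : ℕ) = (e x : ℕ) ^^^ (e y : ℕ) := by
    intro x y
    apply el_inj h h' (e _).2 (Nat.xor_lt_two_pow (e x).2 (e y).2)
    rw [he, el_xor, he, he]
  have hmul : ∀ x y, (e (x * y) : ℕ) = mulN (2 ^ s) P (e x) (e y) := by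
    intro x y
    apply el_inj h h' (e _).2 (mulN_lt h h' _ (e x).2)
    rw [he, el_mulN, he, he]
  have h0 : (e 0 : ℕ) = 0 := by
    apply el_inj h h' (e _).2 (by positivity)
    rw [he, el_zero]
  have h1 : (e 1 : ℕ) = 1 := by
    apply el_inj h h' (e _).2 (Nat.one_lt_two_pow (by omega))
    rw [he, el_one]
  have hfin : Finite (AdjoinRoot (poly P)) := Finite.of_equiv _ e.symm
  let ft : Fintype (AdjoinRoot (poly P)) := Fintype.ofFinite _
  have hcard : Fintype.card (AdjoinRoot (poly P)) = 2 ^ s := by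
    rw [Fintype.card_congr e, Fintype.card_fin]
  let g : K ≃+* AdjoinRoot (poly P) :=
    FiniteField.ringEquivOfCardEq (hK.trans hcard.symm)
  refine ⟨⟨g.toEquiv.trans e, ?_, ?_, ?_, ?_⟩⟩
  · simpa using h0
  · simpa using h1
  · intro x y
    simpa using hadd (g x) (g y)
  · intro x y
    simpa using hmul (g x) (g y)

namespace FN

variable {s P : ℕ} {K : Type*} [Field K] (F : FN s P K)

theorem e_lt (x : K) : (F.e x : ℕ) < 2 ^ s := (F.e x).2

theorem exists_e {a : ℕ} (ha : a < 2 ^ s) : ∃ x, (F.e x : ℕ) = a :=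
  ⟨F.e.symm ⟨a, ha⟩, by rw [Equiv.apply_symm_apply]⟩

theorem e_inj {x y : K} (h : (F.e x : ℕ) = F.e y) : x = y := F.e.injective (Fin.ext h)

theorem e_eq_zero {x : K} : (F.e x : ℕ) = 0 ↔ x = 0 := by
  constructor
  · intro h
    exact F.e_inj (h.trans F.zero.symm)
  · rintro rfl
    exact F.zero

/-- A vector as a number. -/
def num {M : ℕ} (p : Fin M → K) : ℕ := ∑ j : Fin M, (F.e (p j) : ℕ) * (2 ^ s) ^ (j : ℕ)

/-- Vectors and numbers. -/
def ix (M : ℕ) : (Fin M → K) ≃ Fin ((2 ^ s) ^ M) :=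
  ((Equiv.refl (Fin M)).arrowCongr F.e).trans finFunctionFinEquiv

theorem ix_val {M : ℕ} (p : Fin M → K) : (F.ix M p : ℕ) = F.num p := by
  simp only [ix, Equiv.trans_apply, finFunctionFinEquiv_apply]
  rfl

theorem num_lt {M : ℕ} (p : Fin M → K) : F.num p < (2 ^ s) ^ M := by
  rw [← F.ix_val]
  exact (F.ix M p).2

theorem num_inj {M : ℕ} {p r : Fin M → K} (h : F.num p = F.num r) : p = r := by
  rw [← F.ix_val, ← F.ix_val] at h
  exact (F.ix M).injective (Fin.ext h)

theorem exists_num {M v : ℕ} (hv : v < (2 ^ s) ^ M) : ∃ p : Fin M → K, F.num p = v := by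
  refine ⟨(F.ix M).symm ⟨v, hv⟩, ?_⟩
  rw [← F.ix_val, Equiv.apply_symm_apply]

theorem dig_num {M : ℕ} (p : Fin M → K) (j : Fin M) :
    F.num p / (2 ^ s) ^ (j : ℕ) % 2 ^ s = F.e (p j) := by
  rw [← F.ix_val, ← finFunctionFinEquiv_symm_apply_val]
  simp only [ix, Equiv.trans_apply, Equiv.symm_apply_apply]
  rfl

theorem eq_of_dig {M a b : ℕ} (ha : a < (2 ^ s) ^ M) (hb : b < (2 ^ s) ^ M)
    (hab : ∀ j : Fin M, a / (2 ^ s) ^ (j : ℕ) % 2 ^ s = b / (2 ^ s) ^ (j : ℕ) % 2 ^ s) :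
    a = b := by
  have : (⟨a, ha⟩ : Fin ((2 ^ s) ^ M)) = ⟨b, hb⟩ := by
    apply finFunctionFinEquiv.symm.injective
    funext j
    apply Fin.ext
    rw [finFunctionFinEquiv_symm_apply_val, finFunctionFinEquiv_symm_apply_val]
    exact hab j
  exact congrArg Fin.val this

theorem num_add {M : ℕ} (p r : Fin M → K) : F.num (p + r) = F.num p ^^^ F.num r := by
  apply eq_of_dig (F.num_lt _)
  · exact xor_lt_pow (F.num_lt p) (F.num_lt r)
  · intro j
    rw [xor_digit, dig_num, dig_num, dig_num, Pi.add_apply, F.add]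

theorem num_zero (M : ℕ) : F.num (0 : Fin M → K) = 0 := by
  simp [num, F.zero]

theorem num_smul {M : ℕ} (u : K) (p : Fin M → K) :
    F.num (u • p) = smulN (2 ^ s) P M (F.e u) (F.num p) := by
  have h1 : smulN (2 ^ s) P M (F.e u) (F.num p) = ∑ j ∈ Finset.range M,
      mulN (2 ^ s) P (F.e u) (F.num p / (2 ^ s) ^ j % 2 ^ s) * (2 ^ s) ^ j := rfl
  rw [h1, Finset.sum_range, num]
  apply Finset.sum_congr rfl
  intro j _
  rw [dig_num, Pi.smul_apply, smul_eq_mul, F.mul]

theorem num_append {M M' : ℕ} (p : Fin M → K) (r : Fin M' → K) :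
    F.num (Fin.append p r) = F.num p + (2 ^ s) ^ M * F.num r := by
  rw [num, Fin.sum_univ_add, num, num, mul_sum]
  congr 1
  · apply Finset.sum_congr rfl
    intro j _
    rw [Fin.append_left]
    rfl
  · apply Finset.sum_congr rfl
    intro j _
    rw [Fin.append_right, Fin.natAdd, pow_add]
    ring

/-- Sums over the numbers below `q ^ M`. -/
theorem sum_range {M : ℕ} {β : Type*} [AddCommMonoid β] [Fintype K] (f : ℕ → β) :
    ∑ v ∈ range ((2 ^ s) ^ M), f v = ∑ p : Fin M → K, f (F.num p) := by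
  rw [Finset.sum_range]
  exact (Fintype.sum_equiv (F.ix M) _ _ fun p => by rw [F.ix_val]).symm

theorem sum_range_field {β : Type*} [AddCommMonoid β] [Fintype K] (f : ℕ → β) :
    ∑ v ∈ range (2 ^ s), f v = ∑ u : K, f (F.e u) := by
  rw [Finset.sum_range]
  exact (Fintype.sum_equiv F.e _ _ fun p => rfl).symm

end FN

end Vale.Agent.P318.S6
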