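import Vale.Agent.P318.H110.DetN

/-!
# The instance on natural numbers

`q = 2 ^ s` and `P = findP q` are constants; the field `F` with `q` elements lives on the numbers
below `q`, vectors of `F ^ M` are the numbers below `q ^ M` (digits in base `q`), addition is `xor`.
The code is a list `cols` of `n` columns, numbers below `q ^ k`, the first `k` of them being the
unit vectors.  A point `y = (y₀, y₁, y₂)` of `V³`, `V = F ^ n`, is a number below `q ^ (3 n)`,
a position is `y + q ^ (3 n) * c` with `c < q ^ R`, `R = 5 + 3 n`: component `j < 5` is the digit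
`j` of `c`, and the certificate component `(b, κ)` is the digit `5 + b n + κ`.
-/

namespace Vale.Agent.P318.S6

open Vale.Agent.P318.NPH Vale.Agent.P318.H110

/-- An equation `X_a X_b + X_c = β`. -/
abbrev Eq3 := (ℕ × ℕ × ℕ) × Bool

/-- A test: multiplicity, required parity, positions. -/
abbrev Tst := ℕ × ℕ × List ℕ

section

variable (q P : ℕ)

/-! ### Geometry -/

/-- The kernel of `π`. -/
def kerN (k : ℕ) (cols : List ℕ) : List ℕ :=
  (List.range (q ^ cols.length)).filter fun v => (List.range k).all fun i =>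
    (List.range k).all fun i' => decide (entN q P cols v i i' = 0)

/-- Sums of `t` multiples of unit vectors. -/
def sumsN (n : ℕ) : ℕ → List ℕ
  | 0 => [0]
  | t + 1 => (sumsN n t).flatMap fun v => (List.range (q - 1)).flatMap fun c =>
      (List.range n).map fun j => v ^^^ ((c + 1) * q ^ j)

/-- Directions in one block. -/
def dirs1 (t k : ℕ) (cols : List ℕ) : List ℕ :=
  ((sumsN q cols.length t).flatMap fun v => (kerN q P k cols).map fun κ => v ^^^ κ).filter
    fun r => !decide (r = 0)

/-- All directions. -/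
def dirsN (t k : ℕ) (cols : List ℕ) : List ℕ :=
  (dirs1 q P t k cols).flatMap fun r0 => (dirs1 q P t k cols).flatMap fun r1 =>
    (dirs1 q P t k cols).map fun r2 => r0 + q ^ cols.length * (r1 + q ^ cols.length * r2)

/-! ### The system -/

/-- `δ_a(y₀) δ_b(y₁) δ_c(y₂)`. -/
def ddN (k : ℕ) (cols : List ℕ) (y : ℕ) (e : ℕ × ℕ × ℕ) : ℕ :=
  mulN q P (mulN q P (deltaN q P k cols (y % q ^ cols.length) e.1)
    (deltaN q P k cols (y / q ^ cols.length % q ^ cols.length) e.2.1))
    (deltaN q P k cols (y / q ^ cols.length / q ^ cols.length) e.2.2)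

/-- The triple `a, b, c` occurs in the system. -/
def memN (I : List Eq3) (a b c : ℕ) : Bool :=
  I.any fun e => decide (e.1.1 = a) && (decide (e.1.2.1 = b) && decide (e.1.2.2 = c))

/-- The triple `a, b, c` occurs in the system with right hand side one. -/
def mem1N (I : List Eq3) (a b c : ℕ) : Bool :=
  I.any fun e => e.2 && (decide (e.1.1 = a) && (decide (e.1.2.1 = b) && decide (e.1.2.2 = c)))

/-- `ψ_*(y)`. -/
def psiN (k : ℕ) (cols : List ℕ) (I : List Eq3) (y : ℕ) : ℕ :=
  xsum ((List.range (2 ^ k)).flatMap fun a => (List.range (2 ^ k)).flatMap fun b =>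
    (List.range (2 ^ k)).map fun c => if memN I a b c then ddN q P k cols y (a, b, c) else 0)

/-- `ψ_1(y)`. -/
def psi1N (k : ℕ) (cols : List ℕ) (I : List Eq3) (y : ℕ) : ℕ :=
  xsum ((List.range (2 ^ k)).flatMap fun a => (List.range (2 ^ k)).flatMap fun b =>
    (List.range (2 ^ k)).map fun c => if mem1N I a b c then ddN q P k cols y (a, b, c) else 0)

/-- The functions `Z_κ`, `κ < 3 n`. -/
def zN (k n y κ : ℕ) : ℕ :=
  if κ % n < k then mulN q P (dig q y κ) (dig q y κ) ^^^ dig q y κ else dig q y κ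

/-! ### Component vectors of the tests -/

/-- Rank one test. -/
def cT1 (a0 a1 b0 b1 : ℕ) : ℕ :=
  mulN q P a0 b0 + mulN q P a1 b0 * q + mulN q P a0 b1 * q ^ 2 + mulN q P a1 b1 * q ^ 4

/-- Identity test. -/
def cT2 (k : ℕ) (cols : List ℕ) (I : List Eq3) (y γ : ℕ) : ℕ :=
  mulN q P γ (psi1N q P k cols I y) + mulN q P γ (psiN q P k cols I y) * q ^ 3 +
    mulN q P γ (psiN q P k cols I y) * q ^ 4 +
    ((List.range (3 * cols.length)).map fun κ =>
      mulN q P γ (zN q P k cols.length y κ) * q ^ (5 + κ)).sum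

/-- The point `y + x'`, where `x'` is `x` with the block `b` replaced by zero. -/
def shN (n b y x : ℕ) : ℕ :=
  y ^^^ (x % q ^ (n * b) + q ^ (n * b) * q ^ n * (x / q ^ (n * b) / q ^ n))

/-! ### Curves -/

/-- The point with parameter `u` of the curve in `F ^ M` with coefficient vectors `vs`. -/
def evC (M : ℕ) (vs : List ℕ) (u : ℕ) : ℕ :=
  vs.foldr (fun v acc => v ^^^ smulN q P M u acc) 0

/-- The list of `d` vectors (numbers below `QR`) encoded by a number. -/
def coefs (QR d C : ℕ) : List ℕ := (List.range d).map fun a => C / QR ^ a % QR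

/-- The position with parameter `u` on the line `y, r` with coefficients `vs`. -/
def posN (n : ℕ) (y r : ℕ) (vs : List ℕ) (u : ℕ) : ℕ :=
  (y ^^^ smulN q P (3 * n) u r) + q ^ (3 * n) * evC q P (5 + 3 * n) vs u

/-- Positions of a curve test. -/
def t0Pos (n D y r C : ℕ) : List ℕ :=
  (List.range q).map fun u => posN q P n y r (coefs (q ^ (5 + 3 * n)) (D + 1) C) u

/-- Positions of one half of a READ. -/
def halfPos (n D y r c C : ℕ) : List ℕ :=
  (List.range (q - 1)).map fun u => posN q P n y r (c :: coefs (q ^ (5 + 3 * n)) D C) (u + 1)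

/-- The lists of positions of the READs at `(y, cst)`. -/
def readL (n D : ℕ) (dirs : List ℕ) (y cst : ℕ) : List (List ℕ) :=
  (List.range (q ^ (5 + 3 * n))).flatMap fun c => dirs.flatMap fun r => dirs.flatMap fun r' =>
    (List.range ((q ^ (5 + 3 * n)) ^ D)).flatMap fun C =>
      (List.range ((q ^ (5 + 3 * n)) ^ D)).map fun C' =>
        halfPos q P n D y r (cst ^^^ c) C ++ halfPos q P n D y r' c C'

/-! ### Tests: multiplicity, required parity, positions -/

/-- Curve tests. -/
def ts0 (D n μ : ℕ) (dirs : List ℕ) : List Tst :=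
  (List.range (q ^ (3 * n))).flatMap fun y => dirs.flatMap fun r =>
    (List.range ((q ^ (5 + 3 * n)) ^ (D + 1))).map fun C => (μ, 0, t0Pos q P n D y r C)

/-- Rank one tests. -/
def ts1 (D n μ : ℕ) (dirs : List ℕ) : List Tst :=
  (List.range (q ^ (3 * n))).flatMap fun y => (List.range q).flatMap fun a0 =>
    (List.range q).flatMap fun a1 => (List.range q).flatMap fun b0 =>
      (List.range q).flatMap fun b1 =>
        (readL q P n D dirs y (cT1 q P a0 a1 b0 b1)).map fun ps => (μ, 0, ps)

/-- Identity tests. -/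
def ts2 (D k μ : ℕ) (cols : List ℕ) (I : List Eq3) (dirs : List ℕ) : List Tst :=
  (List.range (q ^ (3 * cols.length))).flatMap fun y => (List.range q).flatMap fun γ =>
    (readL q P cols.length D dirs y (cT2 q P k cols I y γ)).map fun ps => (μ, 0, ps)

/-- Comparison tests for the block `b`. -/
def ts3 (D n b μ : ℕ) (dirs : List ℕ) : List Tst :=
  (List.range (q ^ (3 * n))).flatMap fun y => (List.range (q ^ (3 * n))).flatMap fun x =>
    (List.range q).flatMap fun γ => (readL q P n D dirs y (γ * q ^ (b + 1))).flatMap fun ps =>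
      (readL q P n D dirs (shN q n b y x) (γ * q ^ (b + 1))).map fun ps' => (μ, 0, ps ++ ps')

/-- Tests of the component `1`. -/
def ts4 (D n μ : ℕ) (dirs : List ℕ) : List Tst :=
  (List.range (q ^ (3 * n))).flatMap fun y => (List.range q).flatMap fun γ =>
    (readL q P n D dirs y γ).map fun ps => (μ, γ % 2, ps)

/-! ### Numbers of the tests and multiplicities -/

/-- Number of READs at a point, `nd` directions. -/
def nRd (n D nd : ℕ) : ℕ :=
  q ^ (5 + 3 * n) * nd * nd * (q ^ (5 + 3 * n)) ^ D * (q ^ (5 + 3 * n)) ^ D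

/-- Number of tests T0. -/
def nT0 (n D nd : ℕ) : ℕ := q ^ (3 * n) * nd * (q ^ (5 + 3 * n)) ^ (D + 1)

/-- Number of tests T1. -/
def nT1 (n D nd : ℕ) : ℕ := q ^ (3 * n) * q ^ 4 * nRd q n D nd

/-- Number of tests T2 and T4. -/
def nT2 (n D nd : ℕ) : ℕ := q ^ (3 * n) * q * nRd q n D nd

/-- Number of tests T3, one block. -/
def nT3 (n D nd : ℕ) : ℕ := q ^ (3 * n) * q ^ (3 * n) * q * nRd q n D nd * nRd q n D nd

/-- The common scale: the family with `N` tests and weight `w` has multiplicity `w * S / N`. -/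
def scN (n D nd : ℕ) : ℕ := nT0 q n D nd * nT1 q n D nd * nT2 q n D nd * nT3 q n D nd

/-- Multiplicities. -/
def mu0 (w n D nd : ℕ) : ℕ := w * (nT1 q n D nd * nT2 q n D nd * nT3 q n D nd)
def mu1 (w n D nd : ℕ) : ℕ := w * (nT0 q n D nd * nT2 q n D nd * nT3 q n D nd)
def mu2 (w n D nd : ℕ) : ℕ := w * (nT0 q n D nd * nT1 q n D nd * nT3 q n D nd)
def mu3 (w n D nd : ℕ) : ℕ := w * (nT0 q n D nd * nT1 q n D nd * nT2 q n D nd)

/-- All tests; `w` is the list of the five weights. -/
def allT (D t k : ℕ) (w : List ℕ) (cols : List ℕ) (I : List Eq3) : List Tst :=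
  let dirs := dirsN q P t k cols
  let n := cols.length
  let nd := dirs.length
  ts0 q P D n (mu0 q (w.getD 0 0) n D nd) dirs ++
    (ts1 q P D n (mu1 q (w.getD 1 0) n D nd) dirs ++
    (ts2 q P D k (mu2 q (w.getD 2 0) n D nd) cols I dirs ++
    (ts3 q P D n 0 (mu3 q (w.getD 3 0) n D nd) dirs ++
    (ts3 q P D n 1 (mu3 q (w.getD 3 0) n D nd) dirs ++
    (ts3 q P D n 2 (mu3 q (w.getD 3 0) n D nd) dirs ++
    ts4 q P D n (mu2 q (w.getD 4 0) n D nd) dirs)))))

end

end Vale.Agent.P318.S6
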