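import Vale.Agent.P318.S6.Field
import Vale.Agent.P318.S6.Defs
import Vale.Agent.P318.S.Mid

/-!
Points and component vectors as numbers.
-/

namespace Vale.Agent.P318.S6

open Finset Vale.Agent.P318.NPH Vale.Agent.P318.H110 Vale.Agent.P318.S

/-- The numbers of the components. -/
def cEq (n : ℕ) : Comp (Fin n) ≃ Fin (5 + 3 * n) :=
  (Equiv.sumCongr (Equiv.refl (Fin 5)) finProdFinEquiv).trans finSumFinEquiv

theorem cEq_inl (n : ℕ) (j : Fin 5) : (cEq n (Sum.inl j) : ℕ) = j := by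
  simp [cEq]

theorem cEq_inr (n : ℕ) (b : Fin 3) (κ : Fin n) : (cEq n (Sum.inr (b, κ)) : ℕ) = 5 + (κ + n * b) := by
  simp [cEq, finProdFinEquiv]

namespace FN

variable {s P : ℕ} {K : Type*} [Field K] (F : FN s P K) {n : ℕ}

/-- A point of `V³` as a number. -/
def numY (y : Fin 3 → Fin n → K) : ℕ :=
  F.num fun i : Fin (3 * n) => y (finProdFinEquiv.symm i).1 (finProdFinEquiv.symm i).2

/-- A component vector as a number. -/
def numC (c : Comp (Fin n) → K) : ℕ := F.num fun i : Fin (5 + 3 * n) => c ((cEq n).symm i)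

theorem numY_lt (y : Fin 3 → Fin n → K) : F.numY y < (2 ^ s) ^ (3 * n) := F.num_lt _

theorem numC_lt (c : Comp (Fin n) → K) : F.numC c < (2 ^ s) ^ (5 + 3 * n) := F.num_lt _

/-- Points and numbers. -/
def yEq (n : ℕ) : (Fin 3 → Fin n → K) ≃ Fin ((2 ^ s) ^ (3 * n)) :=
  (((Equiv.curry (Fin 3) (Fin n) K).symm).trans
    (Equiv.arrowCongr finProdFinEquiv (Equiv.refl K))).trans (F.ix (3 * n))

theorem yEq_val (y : Fin 3 → Fin n → K) : (F.yEq n y : ℕ) = F.numY y := by
  simp only [yEq, Equiv.trans_apply, F.ix_val, numY]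
  rfl

/-- Component vectors and numbers. -/
def ccEq (n : ℕ) : (Comp (Fin n) → K) ≃ Fin ((2 ^ s) ^ (5 + 3 * n)) :=
  (Equiv.arrowCongr (cEq n) (Equiv.refl K)).trans (F.ix (5 + 3 * n))

theorem ccEq_val (c : Comp (Fin n) → K) : (F.ccEq n c : ℕ) = F.numC c := by
  simp only [ccEq, Equiv.trans_apply, F.ix_val, numC]
  rfl

theorem numY_inj {y y' : Fin 3 → Fin n → K} (h : F.numY y = F.numY y') : y = y' := by
  rw [← F.yEq_val, ← F.yEq_val] at h
  exact (F.yEq n).injective (Fin.ext h)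

theorem numC_inj {c c' : Comp (Fin n) → K} (h : F.numC c = F.numC c') : c = c' := by
  rw [← F.ccEq_val, ← F.ccEq_val] at h
  exact (F.ccEq n).injective (Fin.ext h)

theorem numY_add (y y' : Fin 3 → Fin n → K) : F.numY (y + y') = F.numY y ^^^ F.numY y' :=
  F.num_add _ _

theorem numC_add (c c' : Comp (Fin n) → K) : F.numC (c + c') = F.numC c ^^^ F.numC c' :=
  F.num_add _ _

theorem numY_smul (u : K) (y : Fin 3 → Fin n → K) :
    F.numY (u • y) = smulN (2 ^ s) P (3 * n) (F.e u) (F.numY y) := F.num_smul _ _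

theorem numC_smul (u : K) (c : Comp (Fin n) → K) :
    F.numC (u • c) = smulN (2 ^ s) P (5 + 3 * n) (F.e u) (F.numC c) := F.num_smul _ _

theorem numY_zero : F.numY (0 : Fin 3 → Fin n → K) = 0 := F.num_zero _

theorem numC_zero : F.numC (0 : Comp (Fin n) → K) = 0 := F.num_zero _

/-- Sums over the numbers of the points. -/
theorem sum_numY {β : Type*} [AddCommMonoid β] [Fintype K] (n : ℕ) (f : ℕ → β) :
    ∑ v ∈ range ((2 ^ s) ^ (3 * n)), f v = ∑ y : Fin 3 → Fin n → K, f (F.numY y) := by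
  rw [Finset.sum_range]
  exact (Fintype.sum_equiv (F.yEq n) _ _ fun p => by rw [F.yEq_val]).symm

/-- Sums over the numbers of the component vectors. -/
theorem sum_numC {β : Type*} [AddCommMonoid β] [Fintype K] (n : ℕ) (f : ℕ → β) :
    ∑ v ∈ range ((2 ^ s) ^ (5 + 3 * n)), f v = ∑ c : Comp (Fin n) → K, f (F.numC c) := by
  rw [Finset.sum_range]
  exact (Fintype.sum_equiv (F.ccEq n) _ _ fun p => by rw [F.ccEq_val]).symm

theorem dig_numY (y : Fin 3 → Fin n → K) (b : Fin 3) (κ : Fin n) :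
    dig (2 ^ s) (F.numY y) (κ + n * b) = F.e (y b κ) := by
  have h := F.dig_num (fun i : Fin (3 * n) =>
    y (finProdFinEquiv.symm i).1 (finProdFinEquiv.symm i).2) (finProdFinEquiv (b, κ))
  simp only [Equiv.symm_apply_apply] at h
  exact h

theorem dig_numC (c : Comp (Fin n) → K) (j : Comp (Fin n)) :
    dig (2 ^ s) (F.numC c) (cEq n j) = F.e (c j) := by
  have h := F.dig_num (fun i : Fin (5 + 3 * n) => c ((cEq n).symm i)) (cEq n j)
  simp only [Equiv.symm_apply_apply] at h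
  exact h

theorem numC_eq (c : Comp (Fin n) → K) : F.numC c =
    ∑ j : Fin 5, (F.e (c (Sum.inl j)) : ℕ) * (2 ^ s) ^ (j : ℕ) +
    ∑ i : Fin (3 * n), (F.e (c (Sum.inr (finProdFinEquiv.symm i))) : ℕ) *
      (2 ^ s) ^ (5 + (i : ℕ)) := by
  rw [numC, num, ← (cEq n).sum_comp, Fintype.sum_sum_type]
  refine congrArg₂ (· + ·) ?_ ?_
  · refine sum_congr rfl fun j _ => ?_
    rw [Equiv.symm_apply_apply, cEq_inl]
  · rw [← (finProdFinEquiv (m := 3) (n := n)).sum_comp]
    refine sum_congr rfl fun p _ => ?_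
    obtain ⟨b, κ⟩ := p
    rw [Equiv.symm_apply_apply, Equiv.symm_apply_apply, cEq_inr]
    rfl

theorem numY_eq (y : Fin 3 → Fin n → K) : F.numY y =
    F.num (y 0) + (2 ^ s) ^ n * (F.num (y 1) + (2 ^ s) ^ n * F.num (y 2)) := by
  rw [numY, num, ← finProdFinEquiv.sum_comp, Fintype.sum_prod_type, Fin.sum_univ_three]
  simp only [Equiv.symm_apply_apply]
  rw [num, num, num, mul_add, mul_sum, mul_sum, mul_sum, ← add_assoc]
  refine congrArg₂ (· + ·) (congrArg₂ (· + ·) ?_ ?_) ?_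
  · refine sum_congr rfl fun κ _ => ?_
    simp [finProdFinEquiv]
  · refine sum_congr rfl fun κ _ => ?_
    have h1 : ((finProdFinEquiv (m := 3) (n := n) (1, κ) : Fin (3 * n)) : ℕ) = n + κ := by
      simp [finProdFinEquiv, add_comm]
    rw [h1, pow_add]
    ring
  · refine sum_congr rfl fun κ _ => ?_
    have h1 : ((finProdFinEquiv (m := 3) (n := n) (2, κ) : Fin (3 * n)) : ℕ) = n + (n + κ) := by
      simp only [finProdFinEquiv, Equiv.coe_fn_mk]
      have : ((2 : Fin 3) : ℕ) = 2 := rfl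
      rw [this]
      ring
    rw [h1, pow_add, pow_add]
    ring

theorem numY_blk0 (y : Fin 3 → Fin n → K) : F.numY y % (2 ^ s) ^ n = F.num (y 0) := by
  rw [numY_eq, Nat.add_mul_mod_self_left, Nat.mod_eq_of_lt (F.num_lt _)]

theorem numY_blk1 (y : Fin 3 → Fin n → K) : F.numY y / (2 ^ s) ^ n % (2 ^ s) ^ n =
    F.num (y 1) := by
  have hpos : 0 < (2 ^ s) ^ n := by positivity
  rw [numY_eq, Nat.add_mul_div_left _ _ hpos, Nat.div_eq_of_lt (F.num_lt _), zero_add,
    Nat.add_mul_mod_self_left, Nat.mod_eq_of_lt (F.num_lt _)]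

theorem numY_blk2 (y : Fin 3 → Fin n → K) : F.numY y / (2 ^ s) ^ n / (2 ^ s) ^ n =
    F.num (y 2) := by
  have hpos : 0 < (2 ^ s) ^ n := by positivity
  rw [numY_eq, Nat.add_mul_div_left _ _ hpos, Nat.div_eq_of_lt (F.num_lt _), zero_add,
    Nat.add_mul_div_left _ _ hpos, Nat.div_eq_of_lt (F.num_lt _), zero_add]

end FN

end Vale.Agent.P318.S6
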