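import Vale.Agent.P318.S6.Comp
import Vale.Agent.P318.H591.Dirs

/-!
The list of the directions.
-/

namespace Vale.Agent.P318.S6

open Finset Vale.Agent.P318.NPH Vale.Agent.P318.H110 Vale.Agent.P318.S

/-! ### Sums over lists -/

section lists

variable {α γ β : Type*} [AddCommMonoid β]

theorem sum_flatMap (l : List α) (f : α → List γ) (g : γ → β) :
    ((l.flatMap f).map g).sum = (l.map fun a => ((f a).map g).sum).sum := by
  induction l with
  | nil => simp
  | cons a l ih => simp [List.flatMap_cons, ih]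

theorem sum_filter_list (l : List α) (p : α → Bool) (g : α → β) :
    ((l.filter p).map g).sum = (l.map fun a => if p a then g a else 0).sum := by
  induction l with
  | nil => simp
  | cons a l ih =>
    by_cases h : p a <;> simp [h, ih]

theorem sum_map_range' (n : ℕ) (g : ℕ → β) : ((List.range n).map g).sum = ∑ i ∈ range n, g i := rfl

theorem sum_subtype_if {ι : Type*} [Fintype ι] (p : ι → Prop) [DecidablePred p] (g : ι → β) :
    (∑ i : {i // p i}, g i) = ∑ i, if p i then g i else 0 := by
  rw [← Finset.sum_filter]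
  exact (Finset.sum_subtype _ (by simp) g).symm

end lists

variable {s P : ℕ} {K : Type*} [Field K] (F : FN s P K) {β : Type*} [AddCommMonoid β]

/-- Sums over the nonzero elements. -/
theorem sum_nonzero [Fintype K] [DecidableEq K] (g : ℕ → β) :
    ∑ c ∈ range (2 ^ s - 1), g (c + 1) = ∑ c : {c : K // c ≠ 0}, g (F.e c) := by
  have h1 : ∑ c ∈ range (2 ^ s), (if c = 0 then 0 else g c) =
      ∑ c ∈ range (2 ^ s - 1), g (c + 1) := by
    obtain ⟨m, hm⟩ : ∃ m, 2 ^ s = m + 1 := ⟨2 ^ s - 1, by
      have := Nat.two_pow_pos s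
      omega⟩
    rw [hm, Finset.sum_range_succ']
    simp
  rw [← h1, F.sum_range_field, sum_subtype_if (fun c : K => c ≠ 0) fun c => g (F.e c)]
  refine sum_congr rfl fun c _ => ?_
  by_cases hc : c = 0
  · simp [hc, F.zero]
  · have : (F.e c : ℕ) ≠ 0 := fun h => hc (F.e_eq_zero.1 h)
    rw [if_neg this, if_pos hc]

theorem num_single {n : ℕ} (j : Fin n) (c : K) :
    F.num (Pi.single j c : Fin n → K) = (F.e c : ℕ) * (2 ^ s) ^ (j : ℕ) := by
  rw [FN.num, Finset.sum_eq_single j]
  · rw [Pi.single_eq_same]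
  · intro i _ hi
    rw [Pi.single_eq_of_ne hi, F.zero, zero_mul]
  · simp

/-- Sums over the list of the sums of `t` multiples of unit vectors. -/
theorem sum_sumsN [Fintype K] [DecidableEq K] (n t : ℕ) (g : ℕ → β) :
    ((sumsN (2 ^ s) n t).map g).sum =
      ∑ p : Fin t → {c : K // c ≠ 0} × Fin n, g (F.num (∑ l, H591.el (p l))) := by
  induction t generalizing g with
  | zero =>
    simp only [sumsN, List.map_cons, List.map_nil, List.sum_cons, List.sum_nil, add_zero,
      Finset.univ_eq_empty, Finset.sum_empty, F.num_zero, Fintype.sum_unique]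
  | succ t ih =>
    have key : sumsN (2 ^ s) n (t + 1) = (sumsN (2 ^ s) n t).flatMap fun v =>
      (List.range (2 ^ s - 1)).flatMap fun c => (List.range n).map fun j =>
        v ^^^ ((c + 1) * (2 ^ s) ^ j) := rfl
    rw [key, sum_flatMap]
    have h1 : ∀ v, ((((List.range (2 ^ s - 1)).flatMap fun c => (List.range n).map fun j =>
        v ^^^ ((c + 1) * (2 ^ s) ^ j))).map g).sum =
        ∑ c : {c : K // c ≠ 0}, ∑ j : Fin n, g (v ^^^ ((F.e c : ℕ) * (2 ^ s) ^ (j : ℕ))) := by
      intro v
      rw [sum_flatMap, sum_map_range']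
      simp only [List.map_map, sum_map_range', Function.comp_def]
      rw [sum_nonzero F (fun c => ∑ j ∈ range n, g (v ^^^ (c * (2 ^ s) ^ j)))]
      refine sum_congr rfl fun c _ => ?_
      rw [Finset.sum_range]
    simp only [h1]
    rw [ih]
    conv_rhs =>
      rw [← (Fin.consEquiv fun _ => {c : K // c ≠ 0} × Fin n).sum_comp, Fintype.sum_prod_type,
        Finset.sum_comm]
    refine sum_congr rfl fun p _ => ?_
    rw [Fintype.sum_prod_type]
    refine sum_congr rfl fun c _ => sum_congr rfl fun j _ => ?_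
    rw [← num_single F j (c : K), ← F.num_add]
    congr 2
    rw [Fin.sum_univ_succ, add_comm]
    rfl

/-! ### The kernel -/

section kernel

variable {n k : ℕ} (cols : List ℕ)

theorem sum_kerN [Fintype K] [DecidableEq K] (hn : cols.length = n) (N : Submodule K (Fin n → K))
    [DecidablePred (· ∈ N)] (hN : ∀ v : Fin n → K, v ∈ N ↔
      ∀ i < k, ∀ i' < k, entN (2 ^ s) P cols (F.num v) i i' = 0) (g : ℕ → β) :
    ((kerN (2 ^ s) P k cols).map g).sum = ∑ v : N, g (F.num (v : Fin n → K)) := by
  rw [kerN, sum_filter_list, sum_map_range', hn, F.sum_range]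
  refine Eq.trans ?_ (sum_subtype_if (fun v : Fin n → K => v ∈ N) fun v => g (F.num v)).symm
  refine sum_congr rfl fun v _ => ?_
  refine if_congr ?_ rfl rfl
  rw [hN]
  simp only [List.all_eq_true, List.mem_range, decide_eq_true_eq]

/-- The directions of one block. -/
theorem sum_dirs1 [Fintype K] [DecidableEq K] (hn : cols.length = n)
    (N : Submodule K (Fin n → K))
    [DecidablePred (· ∈ N)] (hN : ∀ v : Fin n → K, v ∈ N ↔
      ∀ i < k, ∀ i' < k, entN (2 ^ s) P cols (F.num v) i i' = 0) (t : ℕ) (g : ℕ → β) :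
    ((dirs1 (2 ^ s) P t k cols).map g).sum = ∑ p : H591.BIx N t, g (F.num (H591.bdir N t p)) := by
  rw [dirs1, sum_filter_list, sum_flatMap]
  simp only [List.map_map, Function.comp_def]
  rw [hn, sum_sumsN F]
  have h1 : ∀ v : Fin n → K, ((kerN (2 ^ s) P k cols).map fun κ =>
      if (!decide (F.num v ^^^ κ = 0)) = true then g (F.num v ^^^ κ) else 0).sum =
      ∑ κ : N, if v + (κ : Fin n → K) ≠ 0 then g (F.num (v + (κ : Fin n → K))) else 0 := by
    intro v
    rw [sum_kerN F cols hn N hN]
    refine sum_congr rfl fun κ _ => ?_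
    rw [← F.num_add]
    refine if_congr ?_ rfl rfl
    rw [Bool.not_eq_true', decide_eq_false_iff_not, not_iff_not]
    constructor
    · intro h
      exact F.num_inj (h.trans (F.num_zero n).symm)
    · intro h
      rw [h, F.num_zero]
  simp only [h1]
  rw [← Fintype.sum_prod_type']
  exact (sum_subtype_if (fun p : (Fin t → {c : K // c ≠ 0} × Fin n) × N =>
    H591.blk N t p ≠ 0) fun p => g (F.num (H591.blk N t p))).symm

/-- All directions. -/
theorem sum_dirsN [Fintype K] [DecidableEq K] (hn : cols.length = n)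
    (N : Submodule K (Fin n → K))
    [DecidablePred (· ∈ N)] (hN : ∀ v : Fin n → K, v ∈ N ↔
      ∀ i < k, ∀ i' < k, entN (2 ^ s) P cols (F.num v) i i' = 0) (t : ℕ) (g : ℕ → β) :
    ((dirsN (2 ^ s) P t k cols).map g).sum =
      ∑ p : Fin 3 → H591.BIx N t, g (F.numY (dir3 (H591.bdir N t) p)) := by
  rw [dirsN, sum_flatMap]
  simp only [sum_flatMap, List.map_map, Function.comp_def]
  simp only [sum_dirs1 F cols hn N hN, hn]
  rw [← (Fin.consEquiv fun _ => H591.BIx N t).sum_comp, Fintype.sum_prod_type]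
  refine sum_congr rfl fun p0 _ => ?_
  rw [← (Fin.consEquiv fun _ => H591.BIx N t).sum_comp, Fintype.sum_prod_type]
  refine sum_congr rfl fun p1 _ => ?_
  rw [← (Fin.consEquiv fun _ => H591.BIx N t).sum_comp, Fintype.sum_prod_type]
  refine sum_congr rfl fun p2 _ => ?_
  rw [Fintype.sum_unique, F.numY_eq]
  rfl

end kernel

end Vale.Agent.P318.S6
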