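import Vale.Agent.P318.S6.Defs
import Vale.Agent.P318.S.Mid

/-!
The system of equations as a finite set of triples of bit vectors.
-/

namespace Vale.Agent.P318.S6

open Finset Vale.Agent.P318.NPH Vale.Agent.P318.H110 Vale.Agent.P318.S

theorem bits_bijective (k : ℕ) :
    Function.Bijective fun (v : Fin (2 ^ k)) (i : Fin k) => (v : ℕ).testBit i := by
  rw [Fintype.bijective_iff_injective_and_card]
  refine ⟨fun S T hST => ?_, by simp⟩
  apply Fin.ext
  apply Nat.eq_of_testBit_eq
  intro i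
  by_cases hi : i < k
  · exact congrFun hST ⟨i, hi⟩
  · rw [Nat.testBit_lt_two_pow (S.2.trans_le (Nat.pow_le_pow_right (by norm_num) (by omega))),
      Nat.testBit_lt_two_pow (T.2.trans_le (Nat.pow_le_pow_right (by norm_num) (by omega)))]

/-- Numbers below `2 ^ k` and bit vectors. -/
noncomputable def zE (k : ℕ) : Fin (2 ^ k) ≃ (Fin k → Bool) := Equiv.ofBijective _ (bits_bijective k)

/-- The number of a bit vector. -/
noncomputable def zn {k : ℕ} (z : Fin k → Bool) : ℕ := ((zE k).symm z : ℕ)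

theorem zn_lt {k : ℕ} (z : Fin k → Bool) : zn z < 2 ^ k := ((zE k).symm z).2

theorem testBit_zn {k : ℕ} (z : Fin k → Bool) (i : Fin k) : (zn z).testBit i = z i :=
  congrFun ((zE k).apply_symm_apply z) i

theorem zn_inj {k : ℕ} {z w : Fin k → Bool} (h : zn z = zn w) : z = w :=
  (zE k).symm.injective (Fin.ext h)

theorem exists_zn {k a : ℕ} (h : a < 2 ^ k) : ∃ z : Fin k → Bool, zn z = a :=
  ⟨zE k ⟨a, h⟩, by rw [zn, Equiv.symm_apply_apply]⟩

theorem sum_zn {β : Type*} [AddCommMonoid β] (k : ℕ) (f : ℕ → β) :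
    ∑ a ∈ range (2 ^ k), f a = ∑ z : Fin k → Bool, f (zn z) := by
  rw [Finset.sum_range]
  exact Fintype.sum_equiv (zE k) _ _ fun a => by rw [zn, Equiv.symm_apply_apply]

/-- The set of the triples of the system. -/
noncomputable def sysA (I : List Eq3) (k : ℕ) :
    Finset ((Fin k → Bool) × (Fin k → Bool) × (Fin k → Bool)) :=
  univ.filter fun e => memN I (zn e.1) (zn e.2.1) (zn e.2.2) = true

/-- The right hand sides. -/
noncomputable def betA (K : Type*) [Zero K] [One K] (I : List Eq3) (k : ℕ)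
    (e : (Fin k → Bool) × (Fin k → Bool) × (Fin k → Bool)) : K :=
  if mem1N I (zn e.1) (zn e.2.1) (zn e.2.2) = true then 1 else 0

theorem memN_iff (I : List Eq3) (a b c : ℕ) : memN I a b c = true ↔ ∃ β, ((a, b, c), β) ∈ I := by
  rw [memN, List.any_eq_true]
  constructor
  · rintro ⟨⟨⟨a', b', c'⟩, β⟩, he, h⟩
    simp only [Bool.and_eq_true, decide_eq_true_eq] at h
    obtain ⟨rfl, rfl, rfl⟩ := h
    exact ⟨β, he⟩
  · rintro ⟨β, he⟩
    exact ⟨_, he, by simp⟩

theorem mem1N_iff (I : List Eq3) (a b c : ℕ) : mem1N I a b c = true ↔ ((a, b, c), true) ∈ I := by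
  rw [mem1N, List.any_eq_true]
  constructor
  · rintro ⟨⟨⟨a', b', c'⟩, β⟩, he, h⟩
    simp only [Bool.and_eq_true, decide_eq_true_eq] at h
    obtain ⟨hβ, rfl, rfl, rfl⟩ := h
    subst hβ
    exact he
  · intro he
    exact ⟨_, he, by simp⟩

theorem mem1N_memN {I : List Eq3} {a b c : ℕ} (h : mem1N I a b c = true) :
    memN I a b c = true := (memN_iff I a b c).2 ⟨true, (mem1N_iff I a b c).1 h⟩

/-- The equations of the list in terms of the finite set: no two equations of the list have the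
same triple. -/
theorem solv_iff {K : Type*} [Field K] {I : List Eq3} {k : ℕ} (hI : (I.map Prod.fst).Nodup)
    (f : Fin 3 → (Fin k → Bool) → K) :
    (∀ e ∈ sysA I k, f 0 e.1 * f 1 e.2.1 + f 2 e.2.2 = betA K I k e) ↔
      ∀ e ∈ I, ∀ a b c : Fin k → Bool, zn a = e.1.1 → zn b = e.1.2.1 → zn c = e.1.2.2 →
        f 0 a * f 1 b + f 2 c = if e.2 then 1 else 0 := by
  have huniq : ∀ t β β', (t, β) ∈ I → (t, β') ∈ I → β = β' := by
    intro t β β' h1 h2
    exact congrArg Prod.snd (List.inj_on_of_nodup_map hI h1 h2 rfl)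
  constructor
  · rintro h ⟨⟨x, y, z⟩, β⟩ he a b c ha hb hc
    simp only at ha hb hc ⊢
    subst ha hb hc
    have h1 := h (a, b, c) (by
      rw [sysA, mem_filter]
      exact ⟨mem_univ _, (memN_iff _ _ _ _).2 ⟨β, he⟩⟩)
    simp only at h1
    rw [h1, betA]
    refine if_congr ?_ rfl rfl
    simp only
    rw [mem1N_iff]
    constructor
    · intro h2
      exact huniq _ _ _ he h2
    · intro h2
      rw [← h2]
      exact he
  · rintro h ⟨a, b, c⟩ he
    rw [sysA, mem_filter] at he
    obtain ⟨β, hβ⟩ := (memN_iff _ _ _ _).1 he.2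
    have h1 := h _ hβ a b c rfl rfl rfl
    simp only at h1 ⊢
    rw [h1, betA]
    refine if_congr ?_ rfl rfl
    simp only
    rw [mem1N_iff]
    constructor
    · intro h2
      rw [← h2]
      exact hβ
    · intro h2
      exact huniq _ _ _ hβ h2

end Vale.Agent.P318.S6
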