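import Vale.Agent.P318.S6.Vecs
import Vale.Agent.P318.S6.Src
import Vale.Agent.P318.H340.Cert

/-!
The geometry of one block on numbers: the functions `δ_z`, the certificate functions, the
coefficients of the test of the system and the directions.
-/

namespace Vale.Agent.P318.S6

open Finset Vale.Agent.P318.H110 Vale.Agent.P318.S Vale.Agent.P318.TR
open Vale.Agent.P318.NPH hiding crv

variable {s P : ℕ} {K : Type*} [Field K] (F : FN s P K)

/-! ### Sums and products -/

theorem xsum_map (l : List K) : xsum (l.map fun x => (F.e x : ℕ)) = F.e l.sum := by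
  induction l with
  | nil =>
    rw [List.sum_nil, F.zero]
    rfl
  | cons a l ih =>
    have : xsum ((a :: l).map fun x => (F.e x : ℕ)) =
      (F.e a : ℕ) ^^^ xsum (l.map fun x => (F.e x : ℕ)) := rfl
    rw [this, ih, List.sum_cons, F.add]

theorem xprod_map (l : List K) : xprod (2 ^ s) P (l.map fun x => (F.e x : ℕ)) = F.e l.prod := by
  induction l with
  | nil =>
    rw [List.prod_nil, F.one]
    rfl
  | cons a l ih =>
    have : xprod (2 ^ s) P ((a :: l).map fun x => (F.e x : ℕ)) =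
      mulN (2 ^ s) P (F.e a : ℕ) (xprod (2 ^ s) P (l.map fun x => (F.e x : ℕ))) := rfl
    rw [this, ih, List.prod_cons, F.mul]

theorem map_range_eq {N : ℕ} {f : ℕ → ℕ} {g : Fin N → K} (h : ∀ i : Fin N, f i = F.e (g i)) :
    (List.range N).map f = (List.ofFn g).map fun x => (F.e x : ℕ) := by
  refine List.ext_getElem (by simp) fun i h1 h2 => ?_
  simp only [List.getElem_map, List.getElem_range, List.getElem_ofFn]
  exact h ⟨i, by simpa using h1⟩

theorem xsum_range {N : ℕ} {f : ℕ → ℕ} {g : Fin N → K} (h : ∀ i : Fin N, f i = F.e (g i)) :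
    xsum ((List.range N).map f) = F.e (∑ i, g i) := by
  rw [map_range_eq F h, xsum_map, List.sum_ofFn]

theorem xprod_range {N : ℕ} {f : ℕ → ℕ} {g : Fin N → K} (h : ∀ i : Fin N, f i = F.e (g i)) :
    xprod (2 ^ s) P ((List.range N).map f) = F.e (∏ i, g i) := by
  rw [map_range_eq F h, xprod_map, List.prod_ofFn]

/-- The element with a given number. -/
noncomputable def dec (a : ℕ) : K := if h : a < 2 ^ s then F.e.symm ⟨a, h⟩ else 0

theorem dec_e (x : K) : dec F (F.e x : ℕ) = x := by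
  rw [dec, dif_pos (F.e_lt x)]
  simp

theorem xsum_dec {l : List ℕ} (h : ∀ a ∈ l, a < 2 ^ s) : xsum l = F.e ((l.map (dec F)).sum) := by
  rw [← xsum_map, List.map_map]
  congr 1
  conv_lhs => rw [← List.map_id l]
  refine List.map_congr_left fun a ha => ?_
  obtain ⟨x, rfl⟩ := F.exists_e (h a ha)
  simp only [Function.comp, dec_e, id]

theorem charP_of_FN {s P : ℕ} {K : Type*} [Field K] (F : FN s P K) : CharP K 2 := by
  apply CharTwo.of_one_ne_zero_of_two_eq_zero one_ne_zero
  apply F.e_eq_zero.1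
  have h2 : (2 : K) = 1 + 1 := by norm_num
  rw [h2, F.add, Nat.xor_self]

/-! ### The functions `δ_z` -/

section

variable {n k : ℕ} {cols : List ℕ} (hn : cols.length = n) {a : Fin n → Fin k → K}
  (ha : ∀ j : Fin n, F.num (a j) = cols.getD j 0)

include hn ha

theorem entN_eq (v : Fin n → K) (i l : Fin k) :
    entN (2 ^ s) P cols (F.num v) i l = F.e (∑ j, v j * (a j i * a j l)) := by
  rw [entN, hn]
  refine xsum_range F fun j => ?_
  rw [F.mul, F.mul, ← F.dig_num v j, ← F.dig_num (a j) i, ← F.dig_num (a j) l, ha]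
  rfl

theorem entZ_eq [CharP K 2] (z : Fin k → Bool) (v : Fin n → K) (i l : Fin k) :
    entZ (2 ^ s) P cols (F.num v) (zn z) i l = F.e ((Cert.pi a v + Cert.dg K z) i l) := by
  rw [entZ, entN_eq F hn ha, Matrix.add_apply, F.add, Cert.pi_apply, testBit_zn]
  congr 1
  rw [Cert.dg, Matrix.diagonal_apply]
  by_cases hil : i = l
  · subst hil
    cases hz : z i
    · simp [F.one]
    · simp [F.zero]
  · rw [if_neg (fun h => hil (Fin.ext h.1)), if_neg hil, F.zero]

/-- The number `deltaN` is the value of `δ_z`. -/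
theorem deltaN_eq (z : Fin k → Bool) (v : Fin n → K) :
    deltaN (2 ^ s) P k cols (F.num v) (zn z) = F.e (Cert.delta a z v) := by
  have := charP_of_FN F
  have h1 : deltaN (2 ^ s) P k cols (F.num v) (zn z) = F.e (∑ S : Fin (2 ^ k), ∏ i : Fin k,
      ∑ l : Fin k, if (S : ℕ).testBit l = true then (Cert.pi a v + Cert.dg K z) i l else 0) := by
    rw [deltaN]
    refine xsum_range F fun S => xprod_range F fun i => xsum_range F fun l => ?_
    split_ifs
    · exact entZ_eq F hn ha z v i l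
    · exact F.zero.symm
  rw [h1, Cert.delta, ← ryser, ← sum_bitSet]
  congr 2
  refine sum_congr rfl fun S _ => prod_congr rfl fun i _ => ?_
  rw [bitSet, Finset.sum_filter]

theorem ddN_eq (e : (Fin k → Bool) × (Fin k → Bool) × (Fin k → Bool)) (y : Fin 3 → Fin n → K) :
    ddN (2 ^ s) P k cols (F.numY y) (zn e.1, zn e.2.1, zn e.2.2) =
      F.e (del3 (Cert.delta a) e y) := by
  rw [ddN, hn, F.numY_blk0, F.numY_blk1, F.numY_blk2, deltaN_eq F hn ha, deltaN_eq F hn ha,
    deltaN_eq F hn ha, del3, F.mul, F.mul]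

theorem xsum_triples (p : ℕ → ℕ → ℕ → Bool) (c : (Fin k → Bool) × (Fin k → Bool) ×
      (Fin k → Bool) → K) (y : Fin 3 → Fin n → K)
    (hc : ∀ e, c e = if p (zn e.1) (zn e.2.1) (zn e.2.2) = true then
      del3 (Cert.delta a) e y else 0) :
    xsum ((List.range (2 ^ k)).flatMap fun a => (List.range (2 ^ k)).flatMap fun b =>
      (List.range (2 ^ k)).map fun c => if p a b c then ddN (2 ^ s) P k cols (F.numY y) (a, b, c)
        else 0) = F.e (∑ e, c e) := by
  have hlt : ∀ x ∈ ((List.range (2 ^ k)).flatMap fun a => (List.range (2 ^ k)).flatMap fun b =>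
      (List.range (2 ^ k)).map fun c => if p a b c then ddN (2 ^ s) P k cols (F.numY y) (a, b, c)
        else 0), x < 2 ^ s := by
    intro x hx
    simp only [List.mem_flatMap, List.mem_range, List.mem_map] at hx
    obtain ⟨a', ha', b', hb', c', hc', rfl⟩ := hx
    obtain ⟨a', rfl⟩ := exists_zn ha'
    obtain ⟨b', rfl⟩ := exists_zn hb'
    obtain ⟨c', rfl⟩ := exists_zn hc'
    split_ifs
    · rw [ddN_eq F hn ha (a', b', c')]
      exact F.e_lt _
    · positivity
  rw [xsum_dec F hlt]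
  congr 2
  rw [sum_flatMap, sum_map_range', sum_zn, Fintype.sum_prod_type]
  refine sum_congr rfl fun a' _ => ?_
  rw [sum_flatMap, sum_map_range', sum_zn, Fintype.sum_prod_type]
  refine sum_congr rfl fun b' _ => ?_
  rw [List.map_map, sum_map_range', sum_zn]
  refine sum_congr rfl fun c' _ => ?_
  rw [hc]
  simp only [Function.comp]
  split_ifs
  · rw [ddN_eq F hn ha (a', b', c'), dec_e]
  · rw [← F.zero, dec_e]

theorem psiN_eq (I : List Eq3) (y : Fin 3 → Fin n → K) :
    psiN (2 ^ s) P k cols I (F.numY y) = F.e (psi (Cert.delta a) (sysA I k) y) := by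
  rw [psiN, xsum_triples F hn ha (fun a b c => memN I a b c)
    (fun e => if memN I (zn e.1) (zn e.2.1) (zn e.2.2) = true then
      del3 (Cert.delta a) e y else 0) y fun _ => rfl, psi, sysA, Finset.sum_filter]

theorem psi1N_eq (I : List Eq3) (y : Fin 3 → Fin n → K) :
    psi1N (2 ^ s) P k cols I (F.numY y) =
      F.e (psi1 (Cert.delta a) (sysA I k) (betA K I k) y) := by
  rw [psi1N, xsum_triples F hn ha (fun a b c => mem1N I a b c)
    (fun e => if mem1N I (zn e.1) (zn e.2.1) (zn e.2.2) = true then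
      del3 (Cert.delta a) e y else 0) y fun _ => rfl, psi1, sysA, Finset.sum_filter]
  congr 2
  refine sum_congr rfl fun e _ => ?_
  rw [betA]
  by_cases h : mem1N I (zn e.1) (zn e.2.1) (zn e.2.2) = true
  · rw [if_pos h, if_pos h, if_pos (mem1N_memN h), one_mul]
  · rw [if_neg h, if_neg h, zero_mul, ite_self]

omit hn ha in
theorem zN_eq (hk : k ≤ n) (y : Fin 3 → Fin n → K) (b : Fin 3) (κ : Fin n) :
    zN (2 ^ s) P k n (F.numY y) (κ + n * b) = F.e (Cert.Zf (Fin.castLE hk) κ (y b)) := by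
  have h1 : ((κ : ℕ) + n * b) % n = κ := by
    rw [Nat.add_mul_mod_self_left, Nat.mod_eq_of_lt κ.2]
  rw [zN, h1, F.dig_numY, Cert.Zf]
  have h2 : (κ : ℕ) < k ↔ ∃ i : Fin k, Fin.castLE hk i = κ := by
    constructor
    · intro h
      exact ⟨⟨κ, h⟩, rfl⟩
    · rintro ⟨i, rfl⟩
      exact i.2
  by_cases h3 : (κ : ℕ) < k
  · rw [if_pos h3, if_pos (h2.1 h3), F.add, sq, F.mul]
  · rw [if_neg h3, if_neg fun h => h3 (h2.2 h)]

/-- Component vectors of the test of the system. -/
theorem cE_cst2 (hk : k ≤ n) (I : List Eq3) (γ : K) (y : Fin 3 → Fin n → K) :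
    (cE F (cst2 (Cert.delta a) (Cert.Zf (Fin.castLE hk)) (sysA I k) (betA K I k) γ y) : ℕ) =
      cT2 (2 ^ s) P k cols I (yE F y) (F.e γ) := by
  rw [cE_numC, F.numC_eq, yE_numY, cT2, psiN_eq F hn ha, psi1N_eq F hn ha, hn]
  refine congrArg₂ (· + ·) ?_ ?_
  · rw [Fin.sum_univ_five]
    have e0 : cst2 (Cert.delta a) (Cert.Zf (Fin.castLE hk)) (sysA I k) (betA K I k) γ y
        (Sum.inl 0) = γ * psi1 (Cert.delta a) (sysA I k) (betA K I k) y := by
      simp [cst2, Fin.ext_iff]
    have e1 : cst2 (Cert.delta a) (Cert.Zf (Fin.castLE hk)) (sysA I k) (betA K I k) γ y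
        (Sum.inl 1) = 0 := by
      simp [cst2, Fin.ext_iff]
    have e2 : cst2 (Cert.delta a) (Cert.Zf (Fin.castLE hk)) (sysA I k) (betA K I k) γ y
        (Sum.inl 2) = 0 := by
      simp [cst2, Fin.ext_iff]
    have e3 : cst2 (Cert.delta a) (Cert.Zf (Fin.castLE hk)) (sysA I k) (betA K I k) γ y
        (Sum.inl 3) = γ * psi (Cert.delta a) (sysA I k) y := by
      simp [cst2, Fin.ext_iff]
    have e4 : cst2 (Cert.delta a) (Cert.Zf (Fin.castLE hk)) (sysA I k) (betA K I k) γ y
        (Sum.inl 4) = γ * psi (Cert.delta a) (sysA I k) y := by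
      simp [cst2, Fin.ext_iff]
    rw [e0, e1, e2, e3, e4, F.mul, F.mul, F.zero]
    have f0 : ((0 : Fin 5) : ℕ) = 0 := rfl
    have f3 : ((3 : Fin 5) : ℕ) = 3 := rfl
    have f4 : ((4 : Fin 5) : ℕ) = 4 := rfl
    rw [f0, f3, f4, pow_zero, mul_one, zero_mul, zero_mul, add_zero, add_zero]
  · rw [sum_map_range', Finset.sum_range]
    refine sum_congr rfl fun i _ => ?_
    obtain ⟨⟨b, κ⟩, rfl⟩ := finProdFinEquiv.surjective i
    rw [Equiv.symm_apply_apply]
    have h1 : ((finProdFinEquiv (b, κ) : Fin (3 * n)) : ℕ) = κ + n * b := by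
      simp [finProdFinEquiv]
    rw [h1, zN_eq F hk, ← F.mul]
    rfl

/-! ### Directions -/

theorem mem_ker_pim (v : Fin n → K) : v ∈ LinearMap.ker (H591.pim a) ↔
    ∀ i < k, ∀ i' < k, entN (2 ^ s) P cols (F.num v) i i' = 0 := by
  rw [LinearMap.mem_ker]
  constructor
  · intro h i hi i' hi'
    have h1 := congrFun (congrFun h ⟨i, hi⟩) ⟨i', hi'⟩
    have h2 := entN_eq F hn ha v ⟨i, hi⟩ ⟨i', hi'⟩
    simp only at h2
    rw [h2, F.e_eq_zero]
    exact h1
  · intro h
    funext i i'
    have h1 := h i i.2 i' i'.2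
    rw [entN_eq F hn ha v i i', F.e_eq_zero] at h1
    exact h1

/-- The list of the directions. -/
theorem lst_dirsN [Fintype K] [DecidableEq K]
    [DecidablePred (· ∈ LinearMap.ker (H591.pim a))] (t : ℕ) :
    Lst (dirsN (2 ^ s) P t k cols) (fun p : Fin 3 → H591.BIx (LinearMap.ker (H591.pim a)) t =>
      (yE F (dir3 (H591.bdir (LinearMap.ker (H591.pim a)) t) p) : ℕ)) := by
  refine Lst.of_sum fun g => ?_
  rw [sum_dirsN F cols hn (LinearMap.ker (H591.pim a)) (mem_ker_pim F hn ha) t g]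
  refine sum_congr rfl fun p _ => ?_
  rw [yE_numY]

end

end Vale.Agent.P318.S6
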