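import Vale.Agent.P318.S6.Geo
import Vale.Agent.P318.TR.All

/-!
The number level describes the geometry of a good code.
-/

namespace Vale.Agent.P318.S6

open Finset Vale.Agent.P318.H110 Vale.Agent.P318.S Vale.Agent.P318.TR
open Vale.Agent.P318.NPH hiding crv

theorem geo2 {s P : ℕ} {K : Type*} [Field K] [Fintype K] [DecidableEq K] (F : FN s P K) {k : ℕ}
    {cols : List ℕ} {a : Fin cols.length → Fin k → K}
    (ha : ∀ j : Fin cols.length, F.num (a j) = cols.getD j 0) (hk : k ≤ cols.length)
    (I : List Eq3) (t : ℕ) [ft : Fintype (H591.BIx (LinearMap.ker (H591.pim a)) t)] :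
    Geo2 F k t cols I (dir3 (H591.bdir (LinearMap.ker (H591.pim a)) t)) (Cert.delta a)
      (Cert.Zf (Fin.castLE hk)) (sysA I k) (betA K I k) (phi F) where
  dirs := by
    classical
    have h := lst_dirsN F rfl ha t
    have e : ft = Subtype.fintype (fun p : (Fin t → {c : K // c ≠ 0} × Fin cols.length) ×
        LinearMap.ker (H591.pim a) => H591.blk (LinearMap.ker (H591.pim a)) t p ≠ 0) :=
      Subsingleton.elim _ _
    subst e
    exact h
  c1 a b := cE_cst1 F a b
  c2 y γ := cE_cst2 F rfl ha hk I γ y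
  cf b γ := cE_cF F b γ
  c0 γ := cE_cOne F γ
  shift b y x := yE_sh F b y x
  phi γ := phi_val F γ

end Vale.Agent.P318.S6
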