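import Vale.Agent.P318.S6.Geo2
import Vale.Agent.P318.TR.Inst
import Vale.Agent.P318.H340.GeoInst
import Vale.Agent.P318.H110.CodeInst
import Vale.Agent.P318.H110.ParamsPT
import Vale.Agent.P318.H767.MidYes
import Vale.Agent.P318.H767.MidNo
import Vale.Agent.P318.H767.Params
import Vale.Agent.P318.H648.Source
import Vale.Agent.P318.AG.Good

/-!
The tests of a system: completeness and soundness.
-/

namespace Vale.Agent.P318.S6

open Finset Vale.Agent.P318.H110 Vale.Agent.P318.S Vale.Agent.P318.TR Vale.Agent.P318.GC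
open Vale.Agent.P318.NPH hiding crv

/-! ### The source -/

section source

variable {K : Type} [Field K] [CharP K 2] {I : List Eq3} {k : ℕ}

theorem solv1_of_bool (hI : (I.map Prod.fst).Nodup)
    (h : ∃ g : ℕ → Bool, ∀ e ∈ I, ((g e.1.1 && g e.1.2.1) ^^ g e.1.2.2) = e.2) :
    Solv1 (sysA I k) (betA K I k) := by
  obtain ⟨g, hg⟩ := h
  refine ⟨fun z => if g (zn z) = true then 1 else 0, ?_⟩
  have h1 := (solv_iff (K := K) (k := k) hI fun _ z => if g (zn z) = true then 1 else 0).2 (by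
    intro e he a b c ha hb hc
    have h2 := hg e he
    rw [← ha, ← hb, ← hc] at h2
    have two : (1 : K) + 1 = 0 := CharTwo.add_self_eq_zero 1
    rw [← h2]
    cases g (zn a) <;> cases g (zn b) <;> cases g (zn c) <;> simp [two])
  exact h1

/-- A table on natural numbers. -/
noncomputable def extT (f : (Fin k → Bool) → K) (a : ℕ) : K :=
  if h : a < 2 ^ k then f (zE k ⟨a, h⟩) else 0

omit [CharP K 2] in
theorem extT_zn (f : (Fin k → Bool) → K) (z : Fin k → Bool) : extT f (zn z) = f z := by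
  rw [extT, dif_pos (zn_lt z)]
  congr 1
  exact (zE k).apply_symm_apply z

omit [CharP K 2] in
theorem eqs_of_solv (hI : (I.map Prod.fst).Nodup)
    (hlt : ∀ e ∈ I, e.1.1 < 2 ^ k ∧ e.1.2.1 < 2 ^ k ∧ e.1.2.2 < 2 ^ k)
    (h : Solv (sysA I k) (betA K I k)) :
    ∃ f₁ f₂ f₃ : ℕ → K, ∀ e ∈ I, Src.EqOK f₁ f₂ f₃ e := by
  obtain ⟨f, hf⟩ := h
  have h1 := (solv_iff (K := K) (k := k) hI f).1 hf
  refine ⟨extT (f 0), extT (f 1), extT (f 2), fun e he => ?_⟩
  obtain ⟨l1, l2, l3⟩ := hlt e he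
  obtain ⟨a, ha⟩ := exists_zn l1
  obtain ⟨b, hb⟩ := exists_zn l2
  obtain ⟨c, hc⟩ := exists_zn l3
  have h2 := h1 e he a b c ha hb hc
  rw [Src.EqOK, ← ha, ← hb, ← hc, extT_zn, extT_zn, extT_zn]
  exact h2

end source

/-! ### The constants -/

/-- The constants of the reduction. -/
structure Cst (s t D c dd : ℕ) : Prop where
  hs : 6 ≤ s
  ht : 1 ≤ t
  hD : D + 2 + 6 * t = 2 ^ s
  h8 : 48 * t + 1 ≤ 2 ^ s
  hdd : 1 ≤ dd
  code : ∀ (K : Type) [Field K] (F : FN s (findP (2 ^ s)) K) (e : ℕ), 1 ≤ e →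
      e * e ≤ (colsN (2 ^ s) (findP (2 ^ s)) c e 1 dd).length ∧
      ∃ a : Fin (colsN (2 ^ s) (findP (2 ^ s)) c e 1 dd).length → Fin (e * e) → K,
        (∀ j : Fin (colsN (2 ^ s) (findP (2 ^ s)) c e 1 dd).length,
          F.num (a j) = (colsN (2 ^ s) (findP (2 ^ s)) c e 1 dd).getD j 0) ∧
        H321.Good (1 - 1 / ((dd : ℝ) * dd)) a ∧
        ∀ (hk : e * e ≤ (colsN (2 ^ s) (findP (2 ^ s)) c e 1 dd).length) (i : Fin (e * e)),
          a (Fin.castLE hk i) = Pi.single i 1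
  hlam : (max (1 - 1 / ((dd : ℝ) * dd)) (1 / ((2 : ℝ) ^ s - 1))) ^ t ≤
    1 / (8192 * ((2 : ℝ) ^ s) ^ 5)

theorem exists_cst : ∃ s t D c dd : ℕ, Cst s t D c dd := by
  -- the code over the field with 64 elements
  let F0 := GaloisField 2 6
  let ft : Fintype F0 := Fintype.ofFinite _
  have hF0 : Fintype.card F0 = 2 ^ 6 := by
    rw [← Nat.card_eq_fintype_card]
    exact GaloisField.card 2 6 (by norm_num)
  obtain ⟨dd, hdd, hcode⟩ := cols_good (F0 := F0) (s0 := 6) hF0 (θ := 5 / ((8 : ℝ) - 1))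
    (by norm_num) (c := (8 - 1) * 8 * 8) (by
      intro K hK
      have := AG.exists_good (k := F0) (a := 3) (q := 8) le_rfl (by norm_num)
        (by rw [hF0]; norm_num) K hK
      exact_mod_cast this)
  have hdd0 : (1 : ℝ) ≤ dd := by exact_mod_cast hdd
  obtain ⟨s, t, h1, h2, -, h4, h5, h6⟩ := H767.exists_params (1 - 1 / ((dd : ℝ) * dd))
    (by
      have : 0 < 1 / ((dd : ℝ) * dd) := by positivity
      linarith) 6 6 (by norm_num)
  have h7 : 1 ≤ 2 ^ s := Nat.one_le_two_pow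
  refine ⟨s, t, 2 ^ s - 2 - 6 * t, (8 - 1) * 8 * 8, dd, h2, h4, by omega, by omega, hdd, ?_, h6⟩
  intro K _ F e he
  obtain ⟨c1, -, -, -, a, c5, c6, c7⟩ := hcode s h1 (by omega) K F e he
  exact ⟨c1, a, c5, c6, c7⟩

/-! ### The tests of a system -/

variable {s t D c dd : ℕ}

/-- The parameter of the code. -/
def padN (t N : ℕ) : ℕ := N + 2 ^ t

/-- The tests of a system whose indices are smaller than `N`. -/
def tsI (s t D c dd N : ℕ) (I : List Eq3) : List Tst :=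
  allT (2 ^ s) (findP (2 ^ s)) D t (H110.kOf (padN t N)) (wL (H767.wts (2 ^ s)))
    (colsI s c dd (padN t N)) I

/-- The number of the positions. -/
def qI (s t c dd N : ℕ) : ℕ := qN s (colsI s c dd (padN t N)).length

/-- The number of the violated tests. -/
def v1I (s t D c dd N : ℕ) : ℕ := v1N s (colsI s c dd (padN t N)).length D
  (dirsN (2 ^ s) (findP (2 ^ s)) t (H110.kOf (padN t N)) (colsI s c dd (padN t N))).length 1

theorem wts_one (q : ℕ) : H767.wts q 1 = 1 := rfl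

theorem wts_pos {q : ℕ} (hq : 0 < q) (j : Fin 5) : 0 < H767.wts q j := by
  fin_cases j <;> simp [H767.wts, hq]

theorem tests_aux {k : ℕ} {θ : ℝ} {cols : List ℕ} {K : Type} [Field K] [Fintype K]
    [DecidableEq K] (F : FN s (findP (2 ^ s)) K) (hK : Fintype.card K = 2 ^ s) (hs : 6 ≤ s)
    (ht : 1 ≤ t) (hD : D + 2 + 6 * t = 2 ^ s) (h8 : 48 * t + 1 ≤ 2 ^ s)
    (hlam : (max θ (1 / ((2 : ℝ) ^ s - 1))) ^ t ≤ 1 / (8192 * ((2 : ℝ) ^ s) ^ 5))
    {a : Fin cols.length → Fin k → K} (ha : ∀ j : Fin cols.length, F.num (a j) = cols.getD j 0)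
    (hgood : H321.Good θ a) (hk : k ≤ cols.length)
    (hunit : ∀ i : Fin k, a (Fin.castLE hk i) = Pi.single i 1) (htk : t ≤ k)
    (I : List Eq3) (hI : (I.map Prod.fst).Nodup)
    (hlt : ∀ e ∈ I, e.1.1 < 2 ^ k ∧ e.1.2.1 < 2 ^ k ∧ e.1.2.2 < 2 ^ k) :
    OkTs (qN s cols.length) (4 * (2 ^ s - 1))
      (allT (2 ^ s) (findP (2 ^ s)) D t k (wL (H767.wts (2 ^ s))) cols I) ∧
    ((∃ g : ℕ → Bool, ∀ e ∈ I, ((g e.1.1 && g e.1.2.1) ^^ g e.1.2.2) = e.2) →
      YesT (qN s cols.length)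
        (allT (2 ^ s) (findP (2 ^ s)) D t k (wL (H767.wts (2 ^ s))) cols I)
        (v1N s cols.length D (dirsN (2 ^ s) (findP (2 ^ s)) t k cols).length 1)) ∧
    ((∀ (K : Type) [Field K] [CharP K 2] (f₁ f₂ f₃ : ℕ → K),
        ¬ ∀ e ∈ I, Src.EqOK f₁ f₂ f₃ e) →
      NoT (1024 * (2 ^ s) ^ 5) (qN s cols.length)
        (allT (2 ^ s) (findP (2 ^ s)) D t k (wL (H767.wts (2 ^ s))) cols I)
        (v1N s cols.length D (dirsN (2 ^ s) (findP (2 ^ s)) t k cols).length 1)) := by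
  classical
  have hs1 : 1 ≤ s := le_trans (by norm_num) hs
  have hq64 : 64 ≤ 2 ^ s := by
    calc 64 = 2 ^ 6 := by norm_num
      _ ≤ 2 ^ s := Nat.pow_le_pow_right (by norm_num) hs
  have hlam2 : H591.lamB K θ t ≤ 1 / (8192 * ((2 : ℝ) ^ s) ^ 5) := by
    rw [H591.lamB, hK]
    push_cast
    exact hlam
  have hqR : (64 : ℝ) ≤ (2 : ℝ) ^ s := by exact_mod_cast hq64
  have hpow : (64 : ℝ) ≤ ((2 : ℝ) ^ s) ^ 5 := by
    calc (64 : ℝ) = 64 * 1 := by norm_num
      _ ≤ (2 : ℝ) ^ s * ((2 : ℝ) ^ s) ^ 4 := by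
        refine mul_le_mul hqR (one_le_pow₀ (by linarith)) (by norm_num) (by positivity)
      _ = ((2 : ℝ) ^ s) ^ 5 := by ring
  have hlam4 : H591.lamB K θ t ≤ 1 / 4 := by
    refine hlam2.trans ?_
    apply one_div_le_one_div_of_le (by norm_num)
    linarith
  have hlam0 : 0 < H591.lamB K θ t := H591.lamB_pos θ t
  have htn : t ≤ cols.length := htk.trans hk
  have hchar : CharP K 2 := charP_of_FN F
  let ftN : Fintype (LinearMap.ker (H591.pim a)) := Fintype.ofFinite _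
  have hQ : Function.Injective (Fin.castLE hk) := Fin.castLE_injective hk
  have hgeo := geoOK_of_good a hgood (Fin.castLE hk) hQ hunit t ht htn hlam4
  have hne : Nonempty (H591.BIx (LinearMap.ker (H591.pim a)) t) := by
    have : Nonempty (Fin cols.length) := ⟨⟨0, by omega⟩⟩
    refine H591.nonempty_bix (H591.hit_ker hgood) ?_ hlam4
    rw [Fintype.card_fin]
    exact htn
  have G := geo2 F ha hk I t
  have hnd := G.nd
  have hD1 : 1 ≤ D := by omega
  refine ⟨?_, fun hyes => ?_, fun hno => ?_⟩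
  · exact G.okTs D (H767.wts (2 ^ s)) (by omega) (fun j => wts_pos (by positivity) j)
  · rw [hnd]
    refine G.yes D (H767.wts (2 ^ s)) hs1 ?_
    exact H767.mid_yes (phi F) (phi_ne_zero F) hK hgeo hD1 hD.le (sysA I k) (betA K I k)
      (solv1_of_bool hI hyes) (H767.wts (2 ^ s))
  · rw [hnd]
    refine G.no D (H767.wts (2 ^ s)) hs1 (by positivity) fun σ => ?_
    refine H767.mid_no_explicit (phi F) (phi_ne_zero F) hq64 hK hD le_rfl
      (by omega) (by omega) (by positivity) ?_ hgeo (sysA I k)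
      (betA K I k) (fun hsolv => ?_) σ
    · push_cast
      have h1 : 6 * H591.lamB K θ t * (1024 * ((2 : ℝ) ^ s) ^ 5) ≤
          6 * (1 / (8192 * ((2 : ℝ) ^ s) ^ 5)) * (1024 * ((2 : ℝ) ^ s) ^ 5) := by
        gcongr
      refine h1.trans ?_
      have h2 : ((2 : ℝ) ^ s) ^ 5 ≠ 0 := by positivity
      field_simp
      norm_num
    · obtain ⟨f₁, f₂, f₃, hf⟩ := eqs_of_solv hI hlt hsolv
      exact hno K f₁ f₂ f₃ hf

theorem tests_ok (H : Cst s t D c dd) (N : ℕ) (I : List Eq3) (hI : (I.map Prod.fst).Nodup)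
    (hlt : ∀ e ∈ I, e.1.1 < N ∧ e.1.2.1 < N ∧ e.1.2.2 < N) :
    OkTs (qI s t c dd N) (4 * (2 ^ s - 1)) (tsI s t D c dd N I) ∧
    ((∃ g : ℕ → Bool, ∀ e ∈ I, ((g e.1.1 && g e.1.2.1) ^^ g e.1.2.2) = e.2) →
      YesT (qI s t c dd N) (tsI s t D c dd N I) (v1I s t D c dd N)) ∧
    ((∀ (K : Type) [Field K] [CharP K 2] (f₁ f₂ f₃ : ℕ → K),
        ¬ ∀ e ∈ I, Src.EqOK f₁ f₂ f₃ e) →
      NoT (1024 * (2 ^ s) ^ 5) (qI s t c dd N) (tsI s t D c dd N I) (v1I s t D c dd N)) := by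
  classical
  have hs1 : 1 ≤ s := le_trans (by norm_num) H.hs
  -- the field
  let K := GaloisField 2 s
  let ftK : Fintype K := Fintype.ofFinite _
  have hK : Fintype.card K = 2 ^ s := by
    rw [← Nat.card_eq_fintype_card]
    exact GaloisField.card 2 s (by omega)
  obtain ⟨F⟩ := exists_FN s hs1 K hK
  -- the code
  obtain ⟨hk, a, ha, hgood, hunit⟩ := H.code K F (eOf (padN t N)) (one_le_eOf _)
  have htk : t ≤ H110.kOf (padN t N) := by
    have h1 : 2 ^ t < 2 ^ H110.kOf (padN t N) := by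
      calc 2 ^ t ≤ padN t N := Nat.le_add_left _ _
        _ < 2 ^ H110.kOf (padN t N) := lt_two_pow_kOf _
    exact ((Nat.pow_lt_pow_iff_right (by norm_num)).1 h1).le
  have hNk : N < 2 ^ H110.kOf (padN t N) := by
    calc N ≤ padN t N := Nat.le_add_right _ _
      _ < 2 ^ H110.kOf (padN t N) := lt_two_pow_kOf _
  exact tests_aux F hK H.hs H.ht H.hD H.h8 H.hlam ha hgood hk (hunit hk) htk I hI fun e he => by
    obtain ⟨h1, h2, h3⟩ := hlt e he
    exact ⟨h1.trans hNk, h2.trans hNk, h3.trans hNk⟩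

end Vale.Agent.P318.S6
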