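import Vale.Agent.P318.S6.Defs
import Vale.Agent.P318.H110.DetPT

/-!
The instance is computable in polynomial time.
-/

namespace Vale.Agent.P318.S6

open Vale.Agent.P318.NPH Vale.Agent.P318.H110 Vale.Agent.Lib.PolyTime

variable {A : Set Word} {α β γ : Type*} [Enc α] [Enc β] [Enc γ]

/-! ### General facts -/

theorem PT_allRange {k : α → ℕ} {f : α → ℕ → Bool} (hk : PT A k) (hkb : PBd k)
    (hf : PT A (fun p : α × ℕ => f p.1 (min p.2 (k p.1)))) :
    PT A (fun a => (List.range (k a)).all (f a)) := by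
  refine (PT.all (f := fun a j => f a (min j (k a))) (PT.range hk hkb) hf).congr fun a => ?_
  rw [Bool.eq_iff_iff, List.all_eq_true, List.all_eq_true]
  refine forall₂_congr fun j hj => ?_
  rw [min_eq_left (List.mem_range.1 hj).le]

theorem PT_dg (q : ℕ) {j v : α → ℕ} (hj : PT A j) (hjb : PBd j) (hv : PT A v) :
    PT A (fun a => dig q (v a) (j a)) :=
  PT.mod (PT.div hv (PT.pow (PT.const q) hj hjb)) (PT.const q)

theorem PT_mul' (q P : ℕ) {a b : α → ℕ} (ha : PT A a) (hb : PT A b) :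
    PT A (fun x => mulN q P (a x) (b x)) := PT_mulN (PT.const q) (PT.const P) ha hb

theorem PBd.fst' {k : α → ℕ} (hk : PBd k) : PBd (fun p : α × β => k p.1) := NPH.PBd.fst hk

/-! ### Geometry -/

theorem PT_entN' (q P : ℕ) {cols : α → List ℕ} {v i i' : α → ℕ} (hc : PT A cols) (hv : PT A v)
    (hi : PT A i) (hib : PBd i) (hi' : PT A i') (hib' : PBd i') :
    PT A (fun a => entN q P (cols a) (v a) (i a) (i' a)) :=
  PT_entN (PT.const q) (PT.const P) hc hv hi hib hi' hib'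

theorem PT_deltaN' (q P : ℕ) {k v z : α → ℕ} {cols : α → List ℕ} (hk : PT A k) (hkb : PBd k)
    (hkb2 : PBd (fun a => 2 ^ k a)) (hc : PT A cols) (hv : PT A v) (hz : PT A z) :
    PT A (fun a => deltaN q P (k a) (cols a) (v a) (z a)) :=
  PT_deltaN (PT.const q) (PT.const P) hk hkb hc hv hz hkb2

theorem PT_kerN (q P : ℕ) {k : α → ℕ} {cols : α → List ℕ} (hk : PT A k) (hkb : PBd k)
    (hc : PT A cols) (hqb : PBd (fun a => q ^ (cols a).length)) :
    PT A (fun a => kerN q P (k a) (cols a)) := by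
  unfold kerN
  refine PT.filter (PT.range (PT.pow (PT.const q) hc.length (PBd.length hc)) hqb) ?_
  refine S6.PT_allRange (hk.comp PT.fst') (PBd.fst' hkb) ?_
  refine S6.PT_allRange (hk.comp PT.fst'.fst) (PBd.fst' (PBd.fst' hkb)) ?_
  have h1 : PT A (fun p : ((α × ℕ) × ℕ) × ℕ => min p.1.2 (k p.1.1.1)) :=
    PT.min PT.fst'.snd (hk.comp PT.fst'.fst.fst)
  have h2 : PT A (fun p : ((α × ℕ) × ℕ) × ℕ => min p.2 (k p.1.1.1)) :=
    PT.min PT.snd' (hk.comp PT.fst'.fst.fst)
  have hkb' : PBd (fun p : ((α × ℕ) × ℕ) × ℕ => k p.1.1.1) := PBd.fst' (PBd.fst' (PBd.fst' hkb))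
  exact PT.eqNat (PT_entN' q P (hc.comp PT.fst'.fst.fst) PT.fst'.fst.snd h1
    (hkb'.mono fun _ => min_le_right _ _) h2 (hkb'.mono fun _ => min_le_right _ _)) (PT.const 0)

/-! ### The system -/

section

variable (q P : ℕ) {k y : α → ℕ} {cols : α → List ℕ} {I : α → List Eq3}

theorem PT_ddN {e : α → ℕ × ℕ × ℕ} (hk : PT A k) (hkb : PBd k)
    (hkb2 : PBd (fun a => 2 ^ k a)) (hc : PT A cols) (hy : PT A y) (he : PT A e) :
    PT A (fun a => ddN q P (k a) (cols a) (y a) (e a)) := by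
  unfold ddN
  have hq : PT A (fun a => q ^ (cols a).length) := PT.pow (PT.const q) hc.length (PBd.length hc)
  exact PT_mul' q P (PT_mul' q P
    (PT_deltaN' q P hk hkb hkb2 hc (PT.mod hy hq) he.fst)
    (PT_deltaN' q P hk hkb hkb2 hc (PT.mod (PT.div hy hq) hq) he.snd.fst))
    (PT_deltaN' q P hk hkb hkb2 hc (PT.div (PT.div hy hq) hq) he.snd.snd)

theorem PT_memN {a b c : α → ℕ} (hI : PT A I) (ha : PT A a) (hb : PT A b) (hc : PT A c) :
    PT A (fun x => memN (I x) (a x) (b x) (c x)) := by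
  unfold memN
  refine PT.any (f := fun x (e : Eq3) => decide (e.1.1 = a x) && (decide (e.1.2.1 = b x) &&
    decide (e.1.2.2 = c x))) hI ?_
  exact PT.and (PT.eqNat PT.snd'.fst.fst (ha.comp PT.fst'))
    (PT.and (PT.eqNat PT.snd'.fst.snd.fst (hb.comp PT.fst'))
      (PT.eqNat PT.snd'.fst.snd.snd (hc.comp PT.fst')))

theorem PT_mem1N {a b c : α → ℕ} (hI : PT A I) (ha : PT A a) (hb : PT A b) (hc : PT A c) :
    PT A (fun x => mem1N (I x) (a x) (b x) (c x)) := by
  unfold mem1N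
  refine PT.any (f := fun x (e : Eq3) => e.2 && (decide (e.1.1 = a x) &&
    (decide (e.1.2.1 = b x) && decide (e.1.2.2 = c x)))) hI ?_
  exact PT.and PT.snd'.snd (PT.and (PT.eqNat PT.snd'.fst.fst (ha.comp PT.fst'))
    (PT.and (PT.eqNat PT.snd'.fst.snd.fst (hb.comp PT.fst'))
      (PT.eqNat PT.snd'.fst.snd.snd (hc.comp PT.fst'))))

theorem PT_psiN (hk : PT A k) (hkb : PBd k)
    (hkb2 : PBd (fun a => 2 ^ k a)) (hc : PT A cols) (hI : PT A I) (hy : PT A y) :
    PT A (fun a => psiN q P (k a) (cols a) (I a) (y a)) := by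
  unfold psiN
  have h2 : PT A (fun a => 2 ^ k a) := PT_two_pow hk hkb
  refine PT_xsum (PT.flatMap (f := fun x a => (List.range (2 ^ k x)).flatMap fun b =>
    (List.range (2 ^ k x)).map fun c =>
      if memN (I x) a b c = true then ddN q P (k x) (cols x) (y x) (a, b, c) else 0)
    (PT.range h2 hkb2) ?_)
  refine PT.flatMap (f := fun (p : α × ℕ) b => (List.range (2 ^ k p.1)).map fun c =>
      if memN (I p.1) p.2 b c = true then ddN q P (k p.1) (cols p.1) (y p.1) (p.2, b, c) else 0)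
    (PT.range (h2.comp PT.fst') (PBd.fst' hkb2)) ?_
  refine PT.map (f := fun (p : (α × ℕ) × ℕ) c =>
      if memN (I p.1.1) p.1.2 p.2 c = true then
        ddN q P (k p.1.1) (cols p.1.1) (y p.1.1) (p.1.2, p.2, c) else 0)
    (PT.range (h2.comp PT.fst'.fst) (PBd.fst' (PBd.fst' hkb2))) ?_
  refine PT.ite ((PT_memN (hI.comp PT.fst'.fst.fst) PT.fst'.fst.snd PT.fst'.snd PT.snd').congr
    fun p => by simp) ?_ (PT.const 0)
  exact PT_ddN q P (hk.comp PT.fst'.fst.fst) (PBd.fst' (PBd.fst' (PBd.fst' hkb)))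
    (PBd.fst' (PBd.fst' (PBd.fst' hkb2))) (hc.comp PT.fst'.fst.fst)
    (hy.comp PT.fst'.fst.fst) (PT.fst'.fst.snd.pair (PT.fst'.snd.pair PT.snd'))

theorem PT_psi1N (hk : PT A k) (hkb : PBd k)
    (hkb2 : PBd (fun a => 2 ^ k a)) (hc : PT A cols) (hI : PT A I) (hy : PT A y) :
    PT A (fun a => psi1N q P (k a) (cols a) (I a) (y a)) := by
  unfold psi1N
  have h2 : PT A (fun a => 2 ^ k a) := PT_two_pow hk hkb
  refine PT_xsum (PT.flatMap (f := fun x a => (List.range (2 ^ k x)).flatMap fun b =>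
    (List.range (2 ^ k x)).map fun c =>
      if mem1N (I x) a b c = true then ddN q P (k x) (cols x) (y x) (a, b, c) else 0)
    (PT.range h2 hkb2) ?_)
  refine PT.flatMap (f := fun (p : α × ℕ) b => (List.range (2 ^ k p.1)).map fun c =>
      if mem1N (I p.1) p.2 b c = true then ddN q P (k p.1) (cols p.1) (y p.1) (p.2, b, c) else 0)
    (PT.range (h2.comp PT.fst') (PBd.fst' hkb2)) ?_
  refine PT.map (f := fun (p : (α × ℕ) × ℕ) c =>
      if mem1N (I p.1.1) p.1.2 p.2 c = true then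
        ddN q P (k p.1.1) (cols p.1.1) (y p.1.1) (p.1.2, p.2, c) else 0)
    (PT.range (h2.comp PT.fst'.fst) (PBd.fst' (PBd.fst' hkb2))) ?_
  refine PT.ite ((PT_mem1N (hI.comp PT.fst'.fst.fst) PT.fst'.fst.snd PT.fst'.snd PT.snd').congr
    fun p => by simp) ?_ (PT.const 0)
  exact PT_ddN q P (hk.comp PT.fst'.fst.fst) (PBd.fst' (PBd.fst' (PBd.fst' hkb)))
    (PBd.fst' (PBd.fst' (PBd.fst' hkb2))) (hc.comp PT.fst'.fst.fst)
    (hy.comp PT.fst'.fst.fst) (PT.fst'.fst.snd.pair (PT.fst'.snd.pair PT.snd'))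

theorem PT_zN {n κ : α → ℕ} (hk : PT A k) (hn : PT A n) (hy : PT A y) (hκ : PT A κ)
    (hκb : PBd κ) : PT A (fun a => zN q P (k a) (n a) (y a) (κ a)) := by
  unfold zN
  have h := PT_dg q hκ hκb hy
  exact PT.ite (PT.lt (PT.mod hκ hn) hk) (PT.natXor (PT_mul' q P h h) h) h

/-! ### Component vectors -/

theorem PT_cT1 {a0 a1 b0 b1 : α → ℕ} (ha0 : PT A a0) (ha1 : PT A a1) (hb0 : PT A b0)
    (hb1 : PT A b1) : PT A (fun a => cT1 q P (a0 a) (a1 a) (b0 a) (b1 a)) := by
  unfold cT1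
  exact (((PT_mul' q P ha0 hb0).add ((PT_mul' q P ha1 hb0).mul (PT.const q))).add
    ((PT_mul' q P ha0 hb1).mul (PT.const (q ^ 2)))).add
    ((PT_mul' q P ha1 hb1).mul (PT.const (q ^ 4)))

theorem PT_cT2 {g : α → ℕ} (hk : PT A k) (hkb : PBd k)
    (hkb2 : PBd (fun a => 2 ^ k a)) (hc : PT A cols) (hI : PT A I) (hy : PT A y) (hg : PT A g) :
    PT A (fun a => cT2 q P (k a) (cols a) (I a) (y a) (g a)) := by
  unfold cT2
  have h1 := PT_psiN q P hk hkb hkb2 hc hI hy
  have h2 := PT_psi1N q P hk hkb hkb2 hc hI hy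
  have h3n : PT A (fun a => 3 * (cols a).length) := (PT.const 3).mul hc.length
  have h3nb : PBd (fun a => 3 * (cols a).length) := (PBd.const 3).mul (PBd.length hc)
  refine PT.add (((PT_mul' q P hg h2).add ((PT_mul' q P hg h1).mul (PT.const (q ^ 3)))).add
    ((PT_mul' q P hg h1).mul (PT.const (q ^ 4)))) (PT.sum (PT_mapRange h3n h3nb ?_))
  refine (PT_mul' q P (hg.comp PT.fst') (PT_zN q P (hk.comp PT.fst') (hc.length.comp PT.fst')
    (hy.comp PT.fst') (PT_run h3n) (PBd_run h3nb))).mul ?_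
  exact PT.pow (PT.const q) ((PT.const 5).add (PT_run h3n)) ((PBd.const 5).add (PBd_run h3nb))

theorem PT_shN {n y x : α → ℕ} (b : ℕ) (hn : PT A n) (hnb : PBd n) (hy : PT A y)
    (hx : PT A x) : PT A (fun a => shN q (n a) b (y a) (x a)) := by
  unfold shN
  have h1 : PT A (fun a => q ^ (n a * b)) :=
    PT.pow (PT.const q) (hn.mul (PT.const b)) (hnb.mul (PBd.const b))
  have h2 : PT A (fun a => q ^ n a) := PT.pow (PT.const q) hn hnb
  exact PT.natXor hy ((PT.mod hx h1).add ((h1.mul h2).mul (PT.div (PT.div hx h1) h2)))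

end

/-! ### Curves -/

theorem mulN_size' {q P a b L : ℕ} (ha : a < 2 ^ L) (hP : P < 2 ^ L) :
    mulN q P a b < 2 ^ (L + esize b) := by
  have := mul_size q P a b.bits L ha hP
  exact this

theorem smulN_size {q P M u h L : ℕ} (hq : 0 < q) (hu : u < 2 ^ L) (hP : P < 2 ^ L) :
    smulN q P M u h < 2 ^ (L + esize q + esize q * M + M) := by
  have hterm : ∀ x ∈ (List.range M).map (fun j => mulN q P u (h / q ^ j % q) * q ^ j),
      x ≤ 2 ^ (L + esize q + esize q * M) := by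
    intro x hx
    obtain ⟨j, hj, rfl⟩ := List.mem_map.1 hx
    have hj' := List.mem_range.1 hj
    have h1 : mulN q P u (h / q ^ j % q) < 2 ^ (L + esize (h / q ^ j % q)) := mulN_size' hu hP
    have h2 : esize (h / q ^ j % q) ≤ esize q := esize_nat_mono (Nat.mod_lt _ hq).le
    have h3 : q ^ j ≤ 2 ^ (esize q * M) := by
      calc q ^ j ≤ (2 ^ esize q) ^ j := Nat.pow_le_pow_left (lt_two_pow_esize q).le j
        _ = 2 ^ (esize q * j) := by rw [pow_mul]
        _ ≤ 2 ^ (esize q * M) := Nat.pow_le_pow_right (by norm_num)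
            (Nat.mul_le_mul_left _ hj'.le)
    calc mulN q P u (h / q ^ j % q) * q ^ j ≤ 2 ^ (L + esize q) * 2 ^ (esize q * M) :=
          Nat.mul_le_mul (h1.le.trans (Nat.pow_le_pow_right (by norm_num) (by omega))) h3
      _ = 2 ^ (L + esize q + esize q * M) := by rw [← pow_add]
  have hsum := List.sum_le_card_nsmul _ _ hterm
  rw [List.length_map, List.length_range, smul_eq_mul] at hsum
  calc smulN q P M u h ≤ M * 2 ^ (L + esize q + esize q * M) := hsum
    _ < 2 ^ M * 2 ^ (L + esize q + esize q * M) :=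
        Nat.mul_lt_mul_of_pos_right Nat.lt_two_pow_self (by positivity)
    _ = 2 ^ (L + esize q + esize q * M + M) := by rw [← pow_add, add_comm]

theorem PT_evC {q : ℕ} (hq : 0 < q) (P : ℕ) {M u : α → ℕ} {vs : α → List ℕ} (hM : PT A M)
    (hMb : PBd M) (hvs : PT A vs) (hu : PT A u) :
    PT A (fun a => evC q P (M a) (vs a) (u a)) := by
  unfold evC
  have hb : PBd (fun a => esize (vs a) + (esize (u a) + esize P + esize q + esize q * M a + M a)) :=
    hvs.pbd.add ((((hu.pbd.add (PBd.const _)).add (PBd.const _)).add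
      ((PBd.const _).mul hMb)).add hMb)
  refine PT.foldr (init := fun _ => 0) (f := fun a v acc => v ^^^ smulN q P (M a) (u a) acc) hvs
    (PT.const 0) ?_ hb fun a i => ?_
  · exact PT.natXor PT.snd'.fst (PT_smulN (PT.const q) (PT.const P) (hM.comp PT.fst')
      (PBd.fst' hMb) (hu.comp PT.fst') PT.snd'.snd)
  · rcases h : (vs a).drop i with _ | ⟨v, l⟩
    · rw [List.foldr_nil]
      have : esize 0 = 0 := rfl
      omega
    · rw [List.foldr_cons]
      apply esize_nat_le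
      apply Nat.xor_lt_two_pow
      · refine (lt_two_pow_esize v).trans_le (Nat.pow_le_pow_right (by norm_num) ?_)
        have : v ∈ vs a := List.mem_of_mem_drop (i := i) (by rw [h]; exact List.mem_cons_self)
        have := esize_le_of_mem this
        omega
      · refine (smulN_size (L := esize (u a) + esize P) hq ?_ ?_).trans_le
          (Nat.pow_le_pow_right (by norm_num) (by omega))
        · exact (lt_two_pow_esize _).trans_le (Nat.pow_le_pow_right (by norm_num) (by omega))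
        · exact (lt_two_pow_esize _).trans_le (Nat.pow_le_pow_right (by norm_num) (by omega))

theorem PT_coefs (d : ℕ) {QR C : α → ℕ} (hQ : PT A QR) (hC : PT A C) :
    PT A (fun a => coefs (QR a) d (C a)) := by
  unfold coefs
  refine PT_mapRange (PT.const d) (PBd.const d) ?_
  exact PT.mod (PT.div (hC.comp PT.fst') (PT.pow (hQ.comp PT.fst') (PT_run (PT.const d))
    (PBd_run (PBd.const d)))) (hQ.comp PT.fst')

section

variable {q : ℕ} (hq : 0 < q) (P : ℕ) {n y r u : α → ℕ}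

include hq in
theorem PT_posN {vs : α → List ℕ} (hn : PT A n) (hnb : PBd n) (hy : PT A y) (hr : PT A r)
    (hvs : PT A vs) (hu : PT A u) :
    PT A (fun a => posN q P (n a) (y a) (r a) (vs a) (u a)) := by
  unfold posN
  have h3 : PT A (fun a => 3 * n a) := (PT.const 3).mul hn
  have h3b : PBd (fun a => 3 * n a) := (PBd.const 3).mul hnb
  exact (PT.natXor hy (PT_smulN (PT.const q) (PT.const P) h3 h3b hu hr)).add
    ((PT.pow (PT.const q) h3 h3b).mul (PT_evC hq P ((PT.const 5).add h3) ((PBd.const 5).add h3b)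
      hvs hu))

theorem PT_QR (hn : PT A n) (hnb : PBd n) : PT A (fun a => q ^ (5 + 3 * n a)) :=
  PT.pow (PT.const q) ((PT.const 5).add ((PT.const 3).mul hn))
    ((PBd.const 5).add ((PBd.const 3).mul hnb))

theorem PBd_Q3 (hqb : PBd (fun a => q ^ n a)) : PBd (fun a => q ^ (3 * n a)) :=
  (hqb.pow 3).mono fun a => by rw [← pow_mul, mul_comm]

theorem PBd_QR (hqb : PBd (fun a => q ^ n a)) : PBd (fun a => q ^ (5 + 3 * n a)) :=
  ((PBd.const (q ^ 5)).mul (PBd_Q3 hqb)).mono fun a => by rw [pow_add]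

include hq in
theorem PT_t0Pos (D : ℕ) {C : α → ℕ} (hn : PT A n) (hnb : PBd n) (hy : PT A y) (hr : PT A r)
    (hC : PT A C) : PT A (fun a => t0Pos q P (n a) D (y a) (r a) (C a)) := by
  unfold t0Pos
  refine PT.map (f := fun a u => posN q P (n a) (y a) (r a)
    (coefs (q ^ (5 + 3 * n a)) (D + 1) (C a)) u) (PT.const (List.range q)) ?_
  exact PT_posN hq P (hn.comp PT.fst') (PBd.fst' hnb) (hy.comp PT.fst') (hr.comp PT.fst')
    (PT_coefs _ ((PT_QR hn hnb).comp PT.fst') (hC.comp PT.fst')) PT.snd'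

include hq in
theorem PT_halfPos (D : ℕ) {c C : α → ℕ} (hn : PT A n) (hnb : PBd n) (hy : PT A y) (hr : PT A r)
    (hc : PT A c) (hC : PT A C) : PT A (fun a => halfPos q P (n a) D (y a) (r a) (c a) (C a)) := by
  unfold halfPos
  refine PT.map (f := fun a u => posN q P (n a) (y a) (r a)
    (c a :: coefs (q ^ (5 + 3 * n a)) D (C a)) (u + 1)) (PT.const (List.range (q - 1))) ?_
  exact PT_posN hq P (hn.comp PT.fst') (PBd.fst' hnb) (hy.comp PT.fst') (hr.comp PT.fst')
    ((hc.comp PT.fst').cons (PT_coefs _ ((PT_QR hn hnb).comp PT.fst') (hC.comp PT.fst')))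
    (PT.snd'.add (PT.const 1))

include hq in
theorem PT_readL (D : ℕ) {cst : α → ℕ} {dirs : α → List ℕ} (hn : PT A n) (hnb : PBd n)
    (hqb : PBd (fun a => q ^ n a)) (hd : PT A dirs) (hy : PT A y) (hc : PT A cst) :
    PT A (fun a => readL q P (n a) D (dirs a) (y a) (cst a)) := by
  unfold readL
  have hQ := PT_QR (q := q) hn hnb
  have hQb := PBd_QR hqb
  have hQD : PT A (fun a => (q ^ (5 + 3 * n a)) ^ D) := hQ.powConst D
  have hQDb : PBd (fun a => (q ^ (5 + 3 * n a)) ^ D) := hQb.pow D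
  refine PT.flatMap (f := fun a c => (dirs a).flatMap fun r => (dirs a).flatMap fun r' =>
    (List.range ((q ^ (5 + 3 * n a)) ^ D)).flatMap fun C =>
      (List.range ((q ^ (5 + 3 * n a)) ^ D)).map fun C' =>
        halfPos q P (n a) D (y a) r (cst a ^^^ c) C ++ halfPos q P (n a) D (y a) r' c C')
    (PT.range hQ hQb) ?_
  refine PT.flatMap (f := fun (p : α × ℕ) r => (dirs p.1).flatMap fun r' =>
    (List.range ((q ^ (5 + 3 * n p.1)) ^ D)).flatMap fun C =>
      (List.range ((q ^ (5 + 3 * n p.1)) ^ D)).map fun C' =>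
        halfPos q P (n p.1) D (y p.1) r (cst p.1 ^^^ p.2) C ++
          halfPos q P (n p.1) D (y p.1) r' p.2 C') (hd.comp PT.fst') ?_
  refine PT.flatMap (f := fun (p : (α × ℕ) × ℕ) r' =>
    (List.range ((q ^ (5 + 3 * n p.1.1)) ^ D)).flatMap fun C =>
      (List.range ((q ^ (5 + 3 * n p.1.1)) ^ D)).map fun C' =>
        halfPos q P (n p.1.1) D (y p.1.1) p.2 (cst p.1.1 ^^^ p.1.2) C ++
          halfPos q P (n p.1.1) D (y p.1.1) r' p.1.2 C') (hd.comp PT.fst'.fst) ?_
  refine PT.flatMap (f := fun (p : ((α × ℕ) × ℕ) × ℕ) C =>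
      (List.range ((q ^ (5 + 3 * n p.1.1.1)) ^ D)).map fun C' =>
        halfPos q P (n p.1.1.1) D (y p.1.1.1) p.1.2 (cst p.1.1.1 ^^^ p.1.1.2) C ++
          halfPos q P (n p.1.1.1) D (y p.1.1.1) p.2 p.1.1.2 C')
    (PT.range (hQD.comp PT.fst'.fst.fst) (PBd.fst' (PBd.fst' (PBd.fst' hQDb)))) ?_
  refine PT.map (f := fun (p : (((α × ℕ) × ℕ) × ℕ) × ℕ) C' =>
        halfPos q P (n p.1.1.1.1) D (y p.1.1.1.1) p.1.1.2 (cst p.1.1.1.1 ^^^ p.1.1.1.2) p.2 ++
          halfPos q P (n p.1.1.1.1) D (y p.1.1.1.1) p.1.2 p.1.1.1.2 C')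
    (PT.range (hQD.comp PT.fst'.fst.fst.fst)
      (PBd.fst' (PBd.fst' (PBd.fst' (PBd.fst' hQDb))))) ?_
  have hn' : PT A (fun p : ((((α × ℕ) × ℕ) × ℕ) × ℕ) × ℕ => n p.1.1.1.1.1) :=
    hn.comp PT.fst'.fst.fst.fst.fst
  have hnb' : PBd (fun p : ((((α × ℕ) × ℕ) × ℕ) × ℕ) × ℕ => n p.1.1.1.1.1) :=
    PBd.fst' (PBd.fst' (PBd.fst' (PBd.fst' (PBd.fst' hnb))))
  have hy' : PT A (fun p : ((((α × ℕ) × ℕ) × ℕ) × ℕ) × ℕ => y p.1.1.1.1.1) :=
    hy.comp PT.fst'.fst.fst.fst.fst
  have hc' : PT A (fun p : ((((α × ℕ) × ℕ) × ℕ) × ℕ) × ℕ => cst p.1.1.1.1.1) :=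
    hc.comp PT.fst'.fst.fst.fst.fst
  exact PT.append (PT_halfPos hq P D hn' hnb' hy' PT.fst'.fst.fst.snd
      (PT.natXor hc' PT.fst'.fst.fst.fst.snd) PT.fst'.snd)
    (PT_halfPos hq P D hn' hnb' hy' PT.fst'.fst.snd PT.fst'.fst.fst.fst.snd PT.snd')

end

/-! ### Directions -/

theorem PT_sumsN (q : ℕ) {n : α → ℕ} (hn : PT A n) (hnb : PBd n) (t : ℕ) :
    PT A (fun a => sumsN q (n a) t) := by
  induction t with
  | zero => exact PT.const [0]
  | succ t ih =>
    have key : ∀ a, sumsN q (n a) (t + 1) = (sumsN q (n a) t).flatMap fun v =>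
      (List.range (q - 1)).flatMap fun c => (List.range (n a)).map fun j =>
        v ^^^ ((c + 1) * q ^ j) := fun a => rfl
    refine PT.congr ?_ fun a => (key a).symm
    refine PT.flatMap (f := fun a v => (List.range (q - 1)).flatMap fun c =>
      (List.range (n a)).map fun j => v ^^^ ((c + 1) * q ^ j)) ih ?_
    refine PT.flatMap (f := fun (p : α × ℕ) c => (List.range (n p.1)).map fun j =>
      p.2 ^^^ ((c + 1) * q ^ j)) (PT.const (List.range (q - 1))) ?_
    refine PT_mapRange (hn.comp PT.fst'.fst) (PBd.fst' (PBd.fst' hnb)) ?_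
    refine PT.natXor PT.fst'.fst.snd ((PT.fst'.snd.add (PT.const 1)).mul
      (PT.pow (PT.const q) ?_ ?_))
    · exact PT.min PT.snd' (hn.comp PT.fst'.fst.fst)
    · exact (PBd.fst' (PBd.fst' (PBd.fst' hnb))).mono fun _ => min_le_right _ _

section

variable (q P : ℕ) {k : α → ℕ} {cols : α → List ℕ}

theorem PT_dirs1 (t : ℕ) (hk : PT A k) (hkb : PBd k)
    (hc : PT A cols) (hqb : PBd (fun a => q ^ (cols a).length)) :
    PT A (fun a => dirs1 q P t (k a) (cols a)) := by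
  unfold dirs1
  refine PT.filter ?_ (PT.eqNat PT.snd' (PT.const 0)).not
  refine PT.flatMap (f := fun a v => (kerN q P (k a) (cols a)).map fun κ => v ^^^ κ)
    (PT_sumsN q hc.length (PBd.length hc) t) ?_
  exact PT.map (f := fun (p : α × ℕ) κ => p.2 ^^^ κ) ((PT_kerN q P hk hkb hc hqb).comp PT.fst')
    (PT.natXor PT.fst'.snd PT.snd')

theorem PT_dirsN (t : ℕ) (hk : PT A k) (hkb : PBd k)
    (hc : PT A cols) (hqb : PBd (fun a => q ^ (cols a).length)) :
    PT A (fun a => dirsN q P t (k a) (cols a)) := by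
  unfold dirsN
  have hd := PT_dirs1 q P t hk hkb hc hqb
  have hQ : PT A (fun a => q ^ (cols a).length) := PT.pow (PT.const q) hc.length (PBd.length hc)
  refine PT.flatMap (f := fun a r1 => (dirs1 q P t (k a) (cols a)).flatMap fun r2 =>
    (dirs1 q P t (k a) (cols a)).map fun r3 =>
      r1 + q ^ (cols a).length * (r2 + q ^ (cols a).length * r3)) hd ?_
  refine PT.flatMap (f := fun (p : α × ℕ) r2 => (dirs1 q P t (k p.1) (cols p.1)).map fun r3 =>
      p.2 + q ^ (cols p.1).length * (r2 + q ^ (cols p.1).length * r3)) (hd.comp PT.fst') ?_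
  refine PT.map (f := fun (p : (α × ℕ) × ℕ) r3 =>
      p.1.2 + q ^ (cols p.1.1).length * (p.2 + q ^ (cols p.1.1).length * r3))
      (hd.comp PT.fst'.fst) ?_
  have hQ' : PT A (fun p : ((α × ℕ) × ℕ) × ℕ => q ^ (cols p.1.1.1).length) :=
    hQ.comp PT.fst'.fst.fst
  exact PT.fst'.fst.snd.add (hQ'.mul (PT.fst'.snd.add (hQ'.mul PT.snd')))

end

end Vale.Agent.P318.S6
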