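import Vale.Agent.P318.S6.PT

/-!
The lists of tests are computable in polynomial time.
-/

namespace Vale.Agent.P318.S6

open Vale.Agent.P318.NPH Vale.Agent.P318.H110 Vale.Agent.Lib.PolyTime

variable {A : Set Word} {α : Type*} [Enc α]
variable {q : ℕ} (hq : 0 < q) (P D : ℕ) {n k μ : α → ℕ} {cols dirs : α → List ℕ}
  {I : α → List Eq3}

theorem PT_Q3 (hn : PT A n) (hnb : PBd n) : PT A (fun a => q ^ (3 * n a)) :=
  PT.pow (PT.const q) ((PT.const 3).mul hn) ((PBd.const 3).mul hnb)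

include hq in
theorem PT_ts0 (hn : PT A n) (hnb : PBd n) (hqb : PBd (fun a => q ^ n a)) (hμ : PT A μ)
    (hd : PT A dirs) : PT A (fun a => ts0 q P D (n a) (μ a) (dirs a)) := by
  unfold ts0
  have hQD : PT A (fun a => (q ^ (5 + 3 * n a)) ^ (D + 1)) := (PT_QR hn hnb).powConst _
  have hQDb : PBd (fun a => (q ^ (5 + 3 * n a)) ^ (D + 1)) := (PBd_QR hqb).pow _
  refine PT.flatMap (f := fun a y => (dirs a).flatMap fun r =>
    (List.range ((q ^ (5 + 3 * n a)) ^ (D + 1))).map fun C =>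
      (μ a, 0, t0Pos q P (n a) D y r C)) (PT.range (PT_Q3 hn hnb) (PBd_Q3 hqb)) ?_
  refine PT.flatMap (f := fun (p : α × ℕ) r =>
    (List.range ((q ^ (5 + 3 * n p.1)) ^ (D + 1))).map fun C =>
      (μ p.1, 0, t0Pos q P (n p.1) D p.2 r C)) (hd.comp PT.fst') ?_
  refine PT.map (f := fun (p : (α × ℕ) × ℕ) C =>
      (μ p.1.1, 0, t0Pos q P (n p.1.1) D p.1.2 p.2 C))
    (PT.range (hQD.comp PT.fst'.fst) (PBd.fst' (PBd.fst' hQDb))) ?_
  refine (hμ.comp PT.fst'.fst.fst).pair ((PT.const 0).pair ?_)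
  exact PT_t0Pos hq P D (hn.comp PT.fst'.fst.fst) (PBd.fst' (PBd.fst' (PBd.fst' hnb)))
    PT.fst'.fst.snd PT.fst'.snd PT.snd'

include hq in
theorem PT_ts1 (hn : PT A n) (hnb : PBd n) (hqb : PBd (fun a => q ^ n a)) (hμ : PT A μ)
    (hd : PT A dirs) : PT A (fun a => ts1 q P D (n a) (μ a) (dirs a)) := by
  unfold ts1
  refine PT.flatMap (f := fun a y => (List.range q).flatMap fun a0 =>
    (List.range q).flatMap fun a1 => (List.range q).flatMap fun b0 =>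
      (List.range q).flatMap fun b1 =>
        (readL q P (n a) D (dirs a) y (cT1 q P a0 a1 b0 b1)).map fun ps => (μ a, 0, ps))
    (PT.range (PT_Q3 hn hnb) (PBd_Q3 hqb)) ?_
  refine PT.flatMap (f := fun (p : α × ℕ) a0 =>
    (List.range q).flatMap fun a1 => (List.range q).flatMap fun b0 =>
      (List.range q).flatMap fun b1 =>
        (readL q P (n p.1) D (dirs p.1) p.2 (cT1 q P a0 a1 b0 b1)).map fun ps => (μ p.1, 0, ps))
    (PT.const (List.range q)) ?_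
  refine PT.flatMap (f := fun (p : (α × ℕ) × ℕ) a1 => (List.range q).flatMap fun b0 =>
      (List.range q).flatMap fun b1 =>
        (readL q P (n p.1.1) D (dirs p.1.1) p.1.2 (cT1 q P p.2 a1 b0 b1)).map fun ps =>
          (μ p.1.1, 0, ps)) (PT.const (List.range q)) ?_
  refine PT.flatMap (f := fun (p : ((α × ℕ) × ℕ) × ℕ) b0 =>
      (List.range q).flatMap fun b1 =>
        (readL q P (n p.1.1.1) D (dirs p.1.1.1) p.1.1.2 (cT1 q P p.1.2 p.2 b0 b1)).map fun ps =>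
          (μ p.1.1.1, 0, ps)) (PT.const (List.range q)) ?_
  refine PT.flatMap (f := fun (p : (((α × ℕ) × ℕ) × ℕ) × ℕ) b1 =>
        (readL q P (n p.1.1.1.1) D (dirs p.1.1.1.1) p.1.1.1.2
          (cT1 q P p.1.1.2 p.1.2 p.2 b1)).map fun ps =>
          (μ p.1.1.1.1, 0, ps)) (PT.const (List.range q)) ?_
  refine PT.map (f := fun (p : ((((α × ℕ) × ℕ) × ℕ) × ℕ) × ℕ) (ps : List ℕ) =>
    (μ p.1.1.1.1.1, 0, ps)) ?_ ((hμ.comp PT.fst'.fst.fst.fst.fst.fst).pair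
      ((PT.const 0).pair PT.snd'))
  have h5 : PBd (fun p : ((((α × ℕ) × ℕ) × ℕ) × ℕ) × ℕ => n p.1.1.1.1.1) :=
    PBd.fst' (PBd.fst' (PBd.fst' (PBd.fst' (PBd.fst' hnb))))
  have h6 : PBd (fun p : ((((α × ℕ) × ℕ) × ℕ) × ℕ) × ℕ => q ^ n p.1.1.1.1.1) :=
    PBd.fst' (PBd.fst' (PBd.fst' (PBd.fst' (PBd.fst' hqb))))
  exact PT_readL hq P D (hn.comp PT.fst'.fst.fst.fst.fst) h5 h6 (hd.comp PT.fst'.fst.fst.fst.fst)
    PT.fst'.fst.fst.fst.snd (PT_cT1 q P PT.fst'.fst.fst.snd PT.fst'.fst.snd PT.fst'.snd PT.snd')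

include hq in
theorem PT_ts2 (hk : PT A k) (hkb : PBd k) (hkb2 : PBd (fun a => 2 ^ k a)) (hc : PT A cols)
    (hqb : PBd (fun a => q ^ (cols a).length)) (hI : PT A I) (hμ : PT A μ)
    (hd : PT A dirs) : PT A (fun a => ts2 q P D (k a) (μ a) (cols a) (I a) (dirs a)) := by
  unfold ts2
  refine PT.flatMap (f := fun a y => (List.range q).flatMap fun γ =>
    (readL q P (cols a).length D (dirs a) y (cT2 q P (k a) (cols a) (I a) y γ)).map fun ps =>
      (μ a, 0, ps)) (PT.range (PT_Q3 hc.length (PBd.length hc)) (PBd_Q3 hqb)) ?_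
  refine PT.flatMap (f := fun (p : α × ℕ) γ =>
    (readL q P (cols p.1).length D (dirs p.1) p.2 (cT2 q P (k p.1) (cols p.1) (I p.1)
      p.2 γ)).map fun ps => (μ p.1, 0, ps)) (PT.const (List.range q)) ?_
  refine PT.map (f := fun (p : (α × ℕ) × ℕ) (ps : List ℕ) => (μ p.1.1, 0, ps)) ?_
    ((hμ.comp PT.fst'.fst.fst).pair ((PT.const 0).pair PT.snd'))
  exact PT_readL hq P D (hc.comp PT.fst'.fst).length (PBd.length (hc.comp PT.fst'.fst))
    (PBd.fst' (PBd.fst' hqb)) (hd.comp PT.fst'.fst) PT.fst'.snd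
    (PT_cT2 q P (hk.comp PT.fst'.fst) (PBd.fst' (PBd.fst' hkb)) (PBd.fst' (PBd.fst' hkb2))
      (hc.comp PT.fst'.fst) (hI.comp PT.fst'.fst) PT.fst'.snd PT.snd')

include hq in
theorem PT_ts3 (b : ℕ) (hn : PT A n) (hnb : PBd n) (hqb : PBd (fun a => q ^ n a)) (hμ : PT A μ)
    (hd : PT A dirs) : PT A (fun a => ts3 q P D (n a) b (μ a) (dirs a)) := by
  unfold ts3
  have hQ3 := PT_Q3 (q := q) hn hnb
  have hQ3b := PBd_Q3 hqb
  refine PT.flatMap (f := fun a y => (List.range (q ^ (3 * n a))).flatMap fun y' =>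
    (List.range q).flatMap fun γ =>
      (readL q P (n a) D (dirs a) y (γ * q ^ (b + 1))).flatMap fun ps =>
      (readL q P (n a) D (dirs a) (shN q (n a) b y y') (γ * q ^ (b + 1))).map fun ps' =>
        (μ a, 0, ps ++ ps')) (PT.range hQ3 hQ3b) ?_
  refine PT.flatMap (f := fun (p : α × ℕ) y' =>
    (List.range q).flatMap fun γ =>
      (readL q P (n p.1) D (dirs p.1) p.2 (γ * q ^ (b + 1))).flatMap fun ps =>
      (readL q P (n p.1) D (dirs p.1) (shN q (n p.1) b p.2 y') (γ * q ^ (b + 1))).map fun ps' =>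
        (μ p.1, 0, ps ++ ps')) (PT.range (hQ3.comp PT.fst') (PBd.fst' hQ3b)) ?_
  refine PT.flatMap (f := fun (p : (α × ℕ) × ℕ) γ =>
      (readL q P (n p.1.1) D (dirs p.1.1) p.1.2 (γ * q ^ (b + 1))).flatMap fun ps =>
      (readL q P (n p.1.1) D (dirs p.1.1) (shN q (n p.1.1) b p.1.2 p.2)
        (γ * q ^ (b + 1))).map fun ps' =>
        (μ p.1.1, 0, ps ++ ps')) (PT.const (List.range q)) ?_
  have h3 : PT A (fun p : ((α × ℕ) × ℕ) × ℕ => n p.1.1.1) := hn.comp PT.fst'.fst.fst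
  have h3b : PBd (fun p : ((α × ℕ) × ℕ) × ℕ => n p.1.1.1) := PBd.fst' (PBd.fst' (PBd.fst' hnb))
  have h3q : PBd (fun p : ((α × ℕ) × ℕ) × ℕ => q ^ n p.1.1.1) :=
    PBd.fst' (PBd.fst' (PBd.fst' hqb))
  have h3d : PT A (fun p : ((α × ℕ) × ℕ) × ℕ => dirs p.1.1.1) := hd.comp PT.fst'.fst.fst
  refine PT.flatMap (f := fun (p : ((α × ℕ) × ℕ) × ℕ) (ps : List ℕ) =>
      (readL q P (n p.1.1.1) D (dirs p.1.1.1) (shN q (n p.1.1.1) b p.1.1.2 p.1.2)
        (p.2 * q ^ (b + 1))).map fun ps' =>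
        (μ p.1.1.1, 0, ps ++ ps')) ?_ ?_
  · exact PT_readL hq P D h3 h3b h3q h3d PT.fst'.fst.snd (PT.snd'.mul (PT.const (q ^ (b + 1))))
  refine PT.map (f := fun (p : (((α × ℕ) × ℕ) × ℕ) × List ℕ) (ps' : List ℕ) =>
        (μ p.1.1.1.1, 0, p.2 ++ ps')) ?_ ?_
  · exact PT_readL hq P D (h3.comp PT.fst') (PBd.fst' h3b) (PBd.fst' h3q) (h3d.comp PT.fst')
      (PT_shN q b (h3.comp PT.fst') (PBd.fst' h3b) PT.fst'.fst.fst.snd PT.fst'.fst.snd)
      (PT.fst'.snd.mul (PT.const (q ^ (b + 1))))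
  · exact (hμ.comp PT.fst'.fst.fst.fst.fst).pair ((PT.const 0).pair
      (PT.append PT.fst'.snd PT.snd'))

include hq in
theorem PT_ts4 (hn : PT A n) (hnb : PBd n) (hqb : PBd (fun a => q ^ n a)) (hμ : PT A μ)
    (hd : PT A dirs) : PT A (fun a => ts4 q P D (n a) (μ a) (dirs a)) := by
  unfold ts4
  refine PT.flatMap (f := fun a y => (List.range q).flatMap fun γ =>
    (readL q P (n a) D (dirs a) y γ).map fun ps => (μ a, γ % 2, ps))
    (PT.range (PT_Q3 hn hnb) (PBd_Q3 hqb)) ?_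
  refine PT.flatMap (f := fun (p : α × ℕ) γ =>
    (readL q P (n p.1) D (dirs p.1) p.2 γ).map fun ps => (μ p.1, γ % 2, ps))
    (PT.const (List.range q)) ?_
  refine PT.map (f := fun (p : (α × ℕ) × ℕ) (ps : List ℕ) => (μ p.1.1, p.2 % 2, ps)) ?_
    ((hμ.comp PT.fst'.fst.fst).pair ((PT.mod PT.fst'.snd (PT.const 2)).pair PT.snd'))
  exact PT_readL hq P D (hn.comp PT.fst'.fst) (PBd.fst' (PBd.fst' hnb)) (PBd.fst' (PBd.fst' hqb))
    (hd.comp PT.fst'.fst) PT.fst'.snd PT.snd'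

/-! ### Multiplicities -/

section numbers

variable {nd w : α → ℕ}

theorem PT_nRd (hn : PT A n) (hnb : PBd n) (hnd : PT A nd) :
    PT A (fun a => nRd q (n a) D (nd a)) := by
  unfold nRd
  exact ((((PT_QR hn hnb).mul hnd).mul hnd).mul ((PT_QR hn hnb).powConst D)).mul
    ((PT_QR hn hnb).powConst D)

theorem PBd_nRd (hqb : PBd (fun a => q ^ n a)) (hndb : PBd nd) :
    PBd (fun a => nRd q (n a) D (nd a)) := by
  unfold nRd
  exact ((((PBd_QR hqb).mul hndb).mul hndb).mul ((PBd_QR hqb).pow D)).mul ((PBd_QR hqb).pow D)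

theorem PT_nT0 (hn : PT A n) (hnb : PBd n) (hnd : PT A nd) :
    PT A (fun a => nT0 q (n a) D (nd a)) := by
  unfold nT0
  exact ((PT_Q3 hn hnb).mul hnd).mul ((PT_QR hn hnb).powConst _)

theorem PBd_nT0 (hqb : PBd (fun a => q ^ n a)) (hndb : PBd nd) :
    PBd (fun a => nT0 q (n a) D (nd a)) := by
  unfold nT0
  exact ((PBd_Q3 hqb).mul hndb).mul ((PBd_QR hqb).pow _)

theorem PT_nT1 (hn : PT A n) (hnb : PBd n) (hnd : PT A nd) :
    PT A (fun a => nT1 q (n a) D (nd a)) := by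
  unfold nT1
  exact ((PT_Q3 hn hnb).mul (PT.const _)).mul (PT_nRd D hn hnb hnd)

theorem PBd_nT1 (hqb : PBd (fun a => q ^ n a)) (hndb : PBd nd) :
    PBd (fun a => nT1 q (n a) D (nd a)) := by
  unfold nT1
  exact ((PBd_Q3 hqb).mul (PBd.const _)).mul (PBd_nRd D hqb hndb)

theorem PT_nT2 (hn : PT A n) (hnb : PBd n) (hnd : PT A nd) :
    PT A (fun a => nT2 q (n a) D (nd a)) := by
  unfold nT2
  exact ((PT_Q3 hn hnb).mul (PT.const _)).mul (PT_nRd D hn hnb hnd)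

theorem PBd_nT2 (hqb : PBd (fun a => q ^ n a)) (hndb : PBd nd) :
    PBd (fun a => nT2 q (n a) D (nd a)) := by
  unfold nT2
  exact ((PBd_Q3 hqb).mul (PBd.const _)).mul (PBd_nRd D hqb hndb)

theorem PT_nT3 (hn : PT A n) (hnb : PBd n) (hnd : PT A nd) :
    PT A (fun a => nT3 q (n a) D (nd a)) := by
  unfold nT3
  exact ((((PT_Q3 hn hnb).mul (PT_Q3 hn hnb)).mul (PT.const _)).mul (PT_nRd D hn hnb hnd)).mul
    (PT_nRd D hn hnb hnd)

theorem PBd_nT3 (hqb : PBd (fun a => q ^ n a)) (hndb : PBd nd) :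
    PBd (fun a => nT3 q (n a) D (nd a)) := by
  unfold nT3
  exact ((((PBd_Q3 hqb).mul (PBd_Q3 hqb)).mul (PBd.const _)).mul (PBd_nRd D hqb hndb)).mul
    (PBd_nRd D hqb hndb)

theorem PT_mu0 (hw : PT A w) (hn : PT A n) (hnb : PBd n) (hnd : PT A nd) :
    PT A (fun a => mu0 q (w a) (n a) D (nd a)) :=
  hw.mul (((PT_nT1 D hn hnb hnd).mul (PT_nT2 D hn hnb hnd)).mul (PT_nT3 D hn hnb hnd))

theorem PT_mu1 (hw : PT A w) (hn : PT A n) (hnb : PBd n) (hnd : PT A nd) :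
    PT A (fun a => mu1 q (w a) (n a) D (nd a)) :=
  hw.mul (((PT_nT0 D hn hnb hnd).mul (PT_nT2 D hn hnb hnd)).mul (PT_nT3 D hn hnb hnd))

theorem PT_mu2 (hw : PT A w) (hn : PT A n) (hnb : PBd n) (hnd : PT A nd) :
    PT A (fun a => mu2 q (w a) (n a) D (nd a)) :=
  hw.mul (((PT_nT0 D hn hnb hnd).mul (PT_nT1 D hn hnb hnd)).mul (PT_nT3 D hn hnb hnd))

theorem PT_mu3 (hw : PT A w) (hn : PT A n) (hnb : PBd n) (hnd : PT A nd) :
    PT A (fun a => mu3 q (w a) (n a) D (nd a)) :=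
  hw.mul (((PT_nT0 D hn hnb hnd).mul (PT_nT1 D hn hnb hnd)).mul (PT_nT2 D hn hnb hnd))

theorem PBd_mu0 (hw : PBd w) (hqb : PBd (fun a => q ^ n a)) (hndb : PBd nd) :
    PBd (fun a => mu0 q (w a) (n a) D (nd a)) :=
  hw.mul (((PBd_nT1 D hqb hndb).mul (PBd_nT2 D hqb hndb)).mul (PBd_nT3 D hqb hndb))

theorem PBd_mu1 (hw : PBd w) (hqb : PBd (fun a => q ^ n a)) (hndb : PBd nd) :
    PBd (fun a => mu1 q (w a) (n a) D (nd a)) :=
  hw.mul (((PBd_nT0 D hqb hndb).mul (PBd_nT2 D hqb hndb)).mul (PBd_nT3 D hqb hndb))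

theorem PBd_mu2 (hw : PBd w) (hqb : PBd (fun a => q ^ n a)) (hndb : PBd nd) :
    PBd (fun a => mu2 q (w a) (n a) D (nd a)) :=
  hw.mul (((PBd_nT0 D hqb hndb).mul (PBd_nT1 D hqb hndb)).mul (PBd_nT3 D hqb hndb))

theorem PBd_mu3 (hw : PBd w) (hqb : PBd (fun a => q ^ n a)) (hndb : PBd nd) :
    PBd (fun a => mu3 q (w a) (n a) D (nd a)) :=
  hw.mul (((PBd_nT0 D hqb hndb).mul (PBd_nT1 D hqb hndb)).mul (PBd_nT2 D hqb hndb))

end numbers

/-! ### All tests -/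

include hq in
theorem PT_allT (t : ℕ) (w : List ℕ) (hk : PT A k) (hkb : PBd k) (hkb2 : PBd (fun a => 2 ^ k a))
    (hc : PT A cols) (hqb : PBd (fun a => q ^ (cols a).length)) (hI : PT A I) :
    PT A (fun a => allT q P D t (k a) w (cols a) (I a)) := by
  unfold allT
  have hd := PT_dirsN q P t hk hkb hc hqb
  have hn := hc.length
  have hnb := PBd.length hc
  have hnd := hd.length
  have h0 := PT_mu0 (q := q) D (PT.const (w.getD 0 0)) hn hnb hnd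
  have h1 := PT_mu1 (q := q) D (PT.const (w.getD 1 0)) hn hnb hnd
  have h2 := PT_mu2 (q := q) D (PT.const (w.getD 2 0)) hn hnb hnd
  have h3 := PT_mu3 (q := q) D (PT.const (w.getD 3 0)) hn hnb hnd
  have h4 := PT_mu2 (q := q) D (PT.const (w.getD 4 0)) hn hnb hnd
  exact (PT_ts0 hq P D hn hnb hqb h0 hd).append ((PT_ts1 hq P D hn hnb hqb h1 hd).append
    ((PT_ts2 hq P D hk hkb hkb2 hc hqb hI h2 hd).append
    ((PT_ts3 hq P D 0 hn hnb hqb h3 hd).append ((PT_ts3 hq P D 1 hn hnb hqb h3 hd).append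
    ((PT_ts3 hq P D 2 hn hnb hqb h3 hd).append (PT_ts4 hq P D hn hnb hqb h4 hd))))))

end Vale.Agent.P318.S6
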