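import Vale.Agent.P318.S6.Inst
import Vale.Agent.P318.S6.PTTests
import Vale.Agent.P318.H648.SourceNP
import Vale.Agent.P318.GC.Final

/-!
The reduction: polynomial time, and the final theorem.
-/

namespace Vale.Agent.P318.S6

open Vale.Agent.P333 Vale.Agent.Lib.PolyTime Vale.Agent.P318.H110 Vale.Agent.P318.TR
  Vale.Agent.P318.GC
open Vale.Agent.P318.NPH hiding crv

/-! ### Bound of the multiplicities -/

/-- The sum of the multiplicities. -/
def muA (q D n nd : ℕ) (w : List ℕ) : ℕ :=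
  mu0 q (w.getD 0 0) n D nd + mu1 q (w.getD 1 0) n D nd + mu2 q (w.getD 2 0) n D nd +
    mu3 q (w.getD 3 0) n D nd + mu2 q (w.getD 4 0) n D nd

theorem allT_mult (q P D t k : ℕ) (w cols : List ℕ) (I : List Eq3) :
    ∀ T ∈ allT q P D t k w cols I,
      T.1 ≤ muA q D cols.length (dirsN q P t k cols).length w := by
  intro T hT
  have h3 : ∀ b μ, T ∈ ts3 q P D cols.length b μ (dirsN q P t k cols) → T.1 = μ := by
    intro b μ h
    simp only [ts3, List.mem_flatMap, List.mem_map] at h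
    obtain ⟨y, -, x, -, γ, -, ps, -, ps', -, rfl⟩ := h
    rfl
  rw [allT] at hT
  simp only [List.mem_append] at hT
  rw [muA]
  rcases hT with h | h | h | h | h | h | h
  · simp only [ts0, List.mem_flatMap, List.mem_map] at h
    obtain ⟨y, -, r, -, C, -, rfl⟩ := h
    simp only
    omega
  · simp only [ts1, List.mem_flatMap, List.mem_map] at h
    obtain ⟨y, -, a0, -, a1, -, b0, -, b1, -, ps, -, rfl⟩ := h
    simp only
    omega
  · simp only [ts2, List.mem_flatMap, List.mem_map] at h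
    obtain ⟨y, -, γ, -, ps, -, rfl⟩ := h
    simp only
    omega
  · rw [h3 _ _ h]
    omega
  · rw [h3 _ _ h]
    omega
  · rw [h3 _ _ h]
    omega
  · simp only [ts4, List.mem_flatMap, List.mem_map] at h
    obtain ⟨y, -, γ, -, ps, -, rfl⟩ := h
    simp only
    omega

/-! ### Polynomial time -/

section

variable {A : Set Word} {α : Type*} [Enc α] {N : α → ℕ} {I : α → List Eq3}

theorem PT_padN (t : ℕ) (hN : PT A N) : PT A (fun x => padN t (N x)) := hN.add (PT.const _)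

theorem PBd_padN (t : ℕ) (hN : PBd N) : PBd (fun x => padN t (N x)) := hN.add (PBd.const _)

theorem PT_tsI {s : ℕ} (t D c dd : ℕ) (hN : PT A N) (hNb : PBd N) (hI : PT A I) :
    PT A (fun x => tsI s t D c dd (N x) (I x)) := by
  unfold tsI
  have hM := PT_padN t hN
  have hMb := PBd_padN t hNb
  exact PT_allT (q := 2 ^ s) (by positivity) (findP (2 ^ s)) D t _ (PT_kOf hM) (PBd_kOf hM)
    (PBd_two_pow_kOf hMb) (PT_colsI hM hMb s c dd) (PBd_q_length hMb s c dd) hI

theorem PT_dirsI {s : ℕ} (t c dd : ℕ) (hN : PT A N) (hNb : PBd N) :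
    PT A (fun x => dirsN (2 ^ s) (findP (2 ^ s)) t (H110.kOf (padN t (N x)))
      (colsI s c dd (padN t (N x)))) := by
  have hM := PT_padN t hN
  have hMb := PBd_padN t hNb
  exact PT_dirsN (2 ^ s) (findP (2 ^ s)) t (PT_kOf hM) (PBd_kOf hM) (PT_colsI hM hMb s c dd)
    (PBd_q_length hMb s c dd)

theorem PT_qI {s : ℕ} (t c dd : ℕ) (hN : PT A N) (hNb : PBd N) :
    PT A (fun x => qI s t c dd (N x)) := by
  unfold qI qN
  have hM := PT_padN t hN
  have hMb := PBd_padN t hNb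
  have hn := (PT_colsI hM hMb s c dd).length
  have hnb := PBd_length_colsI hM s c dd
  have h3 : PT A (fun x => 3 * (colsI s c dd (padN t (N x))).length) := (PT.const 3).mul hn
  have h3b : PBd (fun x => 3 * (colsI s c dd (padN t (N x))).length) := (PBd.const 3).mul hnb
  exact PT.pow (PT.const _) (h3.add ((PT.const 5).add h3)) (h3b.add ((PBd.const 5).add h3b))

theorem PBd_qI {s : ℕ} (t c dd : ℕ) (hNb : PBd N) : PBd (fun x => qI s t c dd (N x)) := by
  unfold qI qN
  have hqb := PBd_q_length (PBd_padN t hNb) s c dd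
  refine ((PBd_Q3 (q := 2 ^ s) hqb).mul (PBd_QR (q := 2 ^ s) hqb)).mono fun x => ?_
  rw [← pow_add]

theorem PT_v1I {s : ℕ} (t D c dd : ℕ) (hN : PT A N) (hNb : PBd N) :
    PT A (fun x => v1I s t D c dd (N x)) := by
  unfold v1I v1N scN
  have hM := PT_padN t hN
  have hMb := PBd_padN t hNb
  have hn := (PT_colsI hM hMb s c dd).length
  have hnb := PBd_length_colsI hM s c dd
  have hnd := (PT_dirsI (s := s) t c dd hN hNb).length
  exact (PT.const _).mul (((((PT_nT0 (q := 2 ^ s) D hn hnb hnd).mul (PT_nT1 D hn hnb hnd)).mul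
    (PT_nT2 D hn hnb hnd)).mul (PT_nT3 D hn hnb hnd)).div (PT.const _))

theorem PBd_muI {s : ℕ} (t D c dd : ℕ) (w : List ℕ) (hN : PT A N) (hNb : PBd N) :
    PBd (fun x => muA (2 ^ s) D (colsI s c dd (padN t (N x))).length
      (dirsN (2 ^ s) (findP (2 ^ s)) t (H110.kOf (padN t (N x)))
        (colsI s c dd (padN t (N x)))).length w) := by
  have hqb := PBd_q_length (PBd_padN t hNb) s c dd
  have hndb := PBd.length (PT_dirsI (s := s) t c dd hN hNb)
  unfold muA
  exact ((((PBd_mu0 (q := 2 ^ s) D (PBd.const _) hqb hndb).add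
    (PBd_mu1 D (PBd.const _) hqb hndb)).add (PBd_mu2 D (PBd.const _) hqb hndb)).add
    (PBd_mu3 D (PBd.const _) hqb hndb)).add (PBd_mu2 D (PBd.const _) hqb hndb)

end

/-! ### The reduction -/

/-- **Every language in NP reduces to the tests, with a gap.** -/
theorem testRed {s t D c dd : ℕ} (H : Cst s t D c dd) {L : Set (List Bool)} (hL : L ∈ classNP) :
    TestRed (1024 * (2 ^ s) ^ 5) L := by
  obtain ⟨Φ, hΦ, hsys, h⟩ := Src.np_sys hL
  have hN : PT ∅ (fun r : Raw => Src.sizeC (Φ r.w)) := Src.PT_sizeC hΦ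
  have hNb : PBd (fun r : Raw => Src.sizeC (Φ r.w)) := Src.PBd_sizeC hΦ
  have e1 := PT_tsI (s := s) t D c dd hN hNb hsys
  have e2 := PT_qI (s := s) t c dd hN hNb
  have e3 := PBd_qI (s := s) t c dd hNb
  have e4 := PT_v1I (s := s) t D c dd hN hNb
  have e5 := PBd_muI (s := s) t D c dd (wL (H767.wts (2 ^ s))) hN hNb
  have e6 : ∀ x, ∀ T ∈ tsI s t D c dd (Src.sizeC (Φ x)) (Src.sysC (Φ x)), T.1 ≤
      muA (2 ^ s) D (colsI s c dd (padN t (Src.sizeC (Φ x)))).length
      (dirsN (2 ^ s) (findP (2 ^ s)) t (H110.kOf (padN t (Src.sizeC (Φ x))))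
        (colsI s c dd (padN t (Src.sizeC (Φ x))))).length (wL (H767.wts (2 ^ s))) :=
    fun x => allT_mult _ _ _ _ _ _ _ _
  have e7 : ∀ x, OkTs (qI s t c dd (Src.sizeC (Φ x))) (4 * (2 ^ s - 1))
        (tsI s t D c dd (Src.sizeC (Φ x)) (Src.sysC (Φ x))) ∧
      (x ∈ L → YesT (qI s t c dd (Src.sizeC (Φ x)))
        (tsI s t D c dd (Src.sizeC (Φ x)) (Src.sysC (Φ x)))
        (v1I s t D c dd (Src.sizeC (Φ x)))) ∧
      (x ∉ L → NoT (1024 * (2 ^ s) ^ 5) (qI s t c dd (Src.sizeC (Φ x)))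
        (tsI s t D c dd (Src.sizeC (Φ x)) (Src.sysC (Φ x)))
        (v1I s t D c dd (Src.sizeC (Φ x)))) := by
    intro x
    obtain ⟨h1, h2, h3, h4⟩ := h x
    obtain ⟨k1, k2, k3⟩ := tests_ok H (Src.sizeC (Φ x)) (Src.sysC (Φ x)) h2 h1
    exact ⟨k1, fun hx => k2 (h3 hx), fun hx => k3 (h4 hx)⟩
  exact ⟨fun x => tsI s t D c dd (Src.sizeC (Φ x)) (Src.sysC (Φ x)),
    fun x => qI s t c dd (Src.sizeC (Φ x)), fun _ => 4 * (2 ^ s - 1),
    fun x => v1I s t D c dd (Src.sizeC (Φ x)),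
    fun x => muA (2 ^ s) D (colsI s c dd (padN t (Src.sizeC (Φ x)))).length
      (dirsN (2 ^ s) (findP (2 ^ s)) t (H110.kOf (padN t (Src.sizeC (Φ x))))
        (colsI s c dd (padN t (Src.sizeC (Φ x))))).length (wL (H767.wts (2 ^ s))),
    e1, e2, e3, PT.const _, PBd.const _, e4, e5, e6, e7⟩

/-- **The final theorem.** -/
theorem noPTAS : NoPTAS := by
  obtain ⟨s, t, D, c, dd, H⟩ := exists_cst
  exact noPTAS_of_testRed (G0 := 1024 * (2 ^ s) ^ 5) (Nat.mul_pos (by norm_num)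
    (Nat.pow_pos (Nat.pow_pos (by norm_num)))) fun L hL => testRed H hL

end Vale.Agent.P318.S6
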