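import Vale.Agent.P318.S6.Comp
import Vale.Agent.P318.S6.DirsSum
import Vale.Agent.P318.TR.Pos

/-!
Component vectors and shifted points on numbers, and the parity functional.
-/

namespace Vale.Agent.P318.S6

open Finset Vale.Agent.P318.H110 Vale.Agent.P318.S Vale.Agent.P318.TR
open Vale.Agent.P318.NPH hiding crv

variable {s P : ℕ} {K : Type*} [Field K] (F : FN s P K) {n : ℕ}

theorem yE_numY (y : Fin 3 → Fin n → K) : (yE F y : ℕ) = F.numY y := yE_val F y

theorem cE_numC (c : Comp (Fin n) → K) : (cE F c : ℕ) = F.numC c := cE_val F c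

theorem numC_single (j : Comp (Fin n)) (γ : K) :
    F.numC (Pi.single j γ : Comp (Fin n) → K) = (F.e γ : ℕ) * (2 ^ s) ^ (cEq n j : ℕ) := by
  rw [← num_single F (cEq n j) γ, FN.numC]
  congr 1
  funext i
  rw [Pi.single_apply, Pi.single_apply]
  exact if_congr (Equiv.symm_apply_eq _) rfl rfl

/-- Component vectors of the comparison tests. -/
theorem cE_cF (b : Fin 3) (γ : K) :
    (cE F (cstE γ (cF b) : Comp (Fin n) → K) : ℕ) = (F.e γ : ℕ) * (2 ^ s) ^ ((b : ℕ) + 1) := by
  rw [cE_numC, cstE, numC_single, cF, cEq_inl]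
  simp

/-- Component vectors of the test of the component `1`. -/
theorem cE_cOne (γ : K) : (cE F (cstE γ cOne : Comp (Fin n) → K) : ℕ) = F.e γ := by
  rw [cE_numC, cstE, numC_single, cOne, cEq_inl]
  simp

/-- Component vectors of the rank one tests. -/
theorem cE_cst1 (a b : Fin 2 → K) : (cE F (cst1 a b : Comp (Fin n) → K) : ℕ) =
    cT1 (2 ^ s) P (F.e (a 0)) (F.e (a 1)) (F.e (b 0)) (F.e (b 1)) := by
  rw [cE_numC, F.numC_eq]
  have h1 : ∑ i : Fin (3 * n), (F.e ((cst1 a b : Comp (Fin n) → K)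
      (Sum.inr (finProdFinEquiv.symm i))) : ℕ) * (2 ^ s) ^ (5 + (i : ℕ)) = 0 := by
    refine sum_eq_zero fun i _ => ?_
    have : (cst1 a b : Comp (Fin n) → K) (Sum.inr (finProdFinEquiv.symm i)) = 0 := by
      simp [cst1, cOne, cF, cH]
    rw [this, F.zero, zero_mul]
  rw [h1, add_zero, Fin.sum_univ_five]
  have e0 : (cst1 a b : Comp (Fin n) → K) (Sum.inl 0) = a 0 * b 0 := by
    simp [cst1, cOne, cF, cH, Fin.ext_iff]
  have e1 : (cst1 a b : Comp (Fin n) → K) (Sum.inl 1) = a 1 * b 0 := by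
    simp [cst1, cOne, cF, cH, Fin.ext_iff]
  have e2 : (cst1 a b : Comp (Fin n) → K) (Sum.inl 2) = a 0 * b 1 := by
    simp [cst1, cOne, cF, cH, Fin.ext_iff]
  have e3 : (cst1 a b : Comp (Fin n) → K) (Sum.inl 3) = 0 := by
    simp [cst1, cOne, cF, cH, Fin.ext_iff]
  have e4 : (cst1 a b : Comp (Fin n) → K) (Sum.inl 4) = a 1 * b 1 := by
    simp [cst1, cOne, cF, cH, Fin.ext_iff]
  rw [e0, e1, e2, e3, e4, F.mul, F.mul, F.mul, F.mul, F.zero, cT1]
  have f0 : ((0 : Fin 5) : ℕ) = 0 := rfl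
  have f1 : ((1 : Fin 5) : ℕ) = 1 := rfl
  have f2 : ((2 : Fin 5) : ℕ) = 2 := rfl
  have f4 : ((4 : Fin 5) : ℕ) = 4 := rfl
  rw [f0, f1, f2, f4, pow_zero, pow_one, mul_one, zero_mul, add_zero]

/-- The shifted points. -/
theorem yE_sh (b : Fin 3) (y x : Fin 3 → Fin n → K) :
    (yE F (sh b y x) : ℕ) = shN (2 ^ s) n b (yE F y) (yE F x) := by
  rw [yE_numY, yE_numY, yE_numY, sh, F.numY_add, shN]
  congr 1
  have hpos : 0 < (2 ^ s) ^ n := by positivity
  rw [F.numY_eq (Function.update x b 0), F.numY_eq x]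
  have h0 := F.num_lt (x 0)
  have h1 := F.num_lt (x 1)
  have h2 := F.num_lt (x 2)
  have hz : F.num (0 : Fin n → K) = 0 := F.num_zero n
  generalize ha : F.num (x 0) = a at *
  generalize hb' : F.num (x 1) = b' at *
  generalize hc : F.num (x 2) = c at *
  generalize hQ : (2 ^ s) ^ n = Q at *
  fin_cases b
  · have u0 : Function.update x 0 0 0 = 0 := by simp
    have u1 : Function.update x 0 0 1 = x 1 := by simp
    have u2 : Function.update x 0 0 2 = x 2 := by simp
    simp only [Fin.zero_eta, u0, u1, u2, hz, hb', hc, mul_zero, pow_zero,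
      Nat.mod_one, Nat.div_one, one_mul, zero_add]
    rw [Nat.add_mul_div_left _ _ hpos, Nat.div_eq_of_lt h0, zero_add]
  · have u0 : Function.update x 1 0 0 = x 0 := by simp
    have u1 : Function.update x 1 0 1 = 0 := by simp
    have u2 : Function.update x 1 0 2 = x 2 := by simp
    simp only [Fin.mk_one, u0, u1, u2, hz, ha, hc, mul_one, hQ, zero_add]
    rw [Nat.add_mul_div_left _ _ hpos, Nat.div_eq_of_lt h0, zero_add,
      Nat.add_mul_div_left _ _ hpos, Nat.div_eq_of_lt h1, zero_add,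
      Nat.add_mul_mod_self_left, Nat.mod_eq_of_lt h0, mul_assoc]
  · have u0 : Function.update x 2 0 0 = x 0 := by simp
    have u1 : Function.update x 2 0 1 = x 1 := by simp
    have u2 : Function.update x 2 0 2 = 0 := by simp
    have e2' : (⟨2, by omega⟩ : Fin 3) = 2 := rfl
    simp only [e2', u0, u1, u2, hz, ha, hb', mul_zero, add_zero]
    have hQ2 : (2 ^ s) ^ (n * 2) = Q * Q := by rw [pow_mul, hQ, sq]
    rw [hQ2]
    have hlt : a + Q * b' < Q * Q := by nlinarith
    have e3 : a + Q * (b' + Q * c) = (a + Q * b') + Q * Q * c := by ring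
    rw [e3, Nat.add_mul_mod_self_left, Nat.mod_eq_of_lt hlt,
      Nat.add_mul_div_left _ _ (by positivity), Nat.div_eq_of_lt hlt, zero_add,
      Nat.div_eq_of_lt h2, mul_zero, add_zero]

/-- The parity functional. -/
def phi : K →+ ZMod 2 where
  toFun x := ((F.e x : ℕ) : ZMod 2)
  map_zero' := by rw [F.zero, Nat.cast_zero]
  map_add' x y := by
    rw [F.add, ← Nat.cast_add, ZMod.natCast_eq_natCast_iff]
    exact Nat.xor_mod_two_eq

theorem phi_val (x : K) : (phi F x).val = (F.e x : ℕ) % 2 := ZMod.val_natCast _ _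

theorem phi_ne_zero : phi F ≠ 0 := by
  intro h
  have h1 := DFunLike.congr_fun h (1 : K)
  have h2 : (phi F 1).val = 1 := by rw [phi_val, F.one]
  rw [h1] at h2
  simp at h2

end Vale.Agent.P318.S6
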